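import Vale.Agent.P154.Lattice.Switch

/-!
# The checker for one generation with Poisson offspring

All of this is computed by the kernel on natural numbers.  Packed laws with stride `W` are cropped
to a window and rescaled by one bitwise conjunction and one shift.  A generation takes the packed
law of a child, forms the truncated series of `exp ((D / 4) (U - 1))` by Horner's rule, squares it
twice and reads the result through a table of two channels.
-/

namespace Vale.P154.PD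

open Vale.P154.Lat

/-- Crop and rescale a packed list. -/
def crop (P N M : Nat) : Nat := Nat.shiftRight (Nat.land N M) P

/-- The sum of `2 ^ (L * i)`, `i < n`. -/
def geom (L n : Nat) : Nat := (2 ^ (L * n) - 1) / (2 ^ L - 1)

/-- Digits `2 ^ K - 2 ^ P` at the positions `i`, `lo <= i % W <= hi`, `rlo <= i / W <= rhi`. -/
def rectMask (K P W lo hi rlo rhi : Nat) : Nat :=
  Nat.shiftLeft ((2 ^ K - 2 ^ P) * geom K (hi + 1 - lo) * geom (K * W) (rhi + 1 - rlo))
    (K * (rlo * W + lo))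

/-- The parameters of a slice. -/
structure PPar where
  C : Par
  W : Nat
  R : Nat
  R2 : Nat
  bA : Nat
  an : Nat
  ad : Nat
  Dn : Nat
  Dd : Nat
  coef : List Nat
  dN : Nat
  dE : Nat
  ctg0 : List (Nat × Nat × Nat)
  ctg1 : List (Nat × Nat × Nat)
  ce : Nat

/-- A leaf of the node table, with targets for both channels. -/
structure PLeaf where
  A : Nat
  B : Nat
  mult : Nat
  mu : Nat
  t0 : List (Nat × Nat × Nat)
  t1 : List (Nat × Nat × Nat)

/-- A leaf of the edge table. -/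
structure PEdge where
  k : Nat
  mu : Nat
  t0 : List (Nat × Nat × Nat)
  t1 : List (Nat × Nat × Nat)

/-- Crop a square of side `2 R + 1` around the centre `(c, c)` and move it to the origin. -/
def crop2 (Q : PPar) (c R N : Nat) : Nat :=
  Nat.shiftRight (crop Q.C.P N (rectMask Q.bA Q.C.P Q.W (c - R) (c + R) (c - R) (c + R)))
    (Q.bA * ((c - R) * (Q.W + 1)))

/-- The stride of the edge, beyond all its positions. -/
def lineW (Q : PPar) : Nat := 8 * Q.R2 + 4 * Q.R + 4 * Q.C.K + 1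

/-- Crop the interval of radius `R` around the centre `c` and move it to the origin. -/
def crop1 (Q : PPar) (c R N : Nat) : Nat :=
  Nat.shiftRight (crop Q.C.P N (rectMask Q.bA Q.C.P (lineW Q) (c - R) (c + R) 0 0))
    (Q.bA * (c - R))

/-- The weighted positions of all orderings, stride `W`. -/
def listU (Q : PPar) (S : Nat) : List (Nat × Nat) :=
  (withW Q.C Q.C.classes S).flatMap fun x =>
    (images Q.C x.1.1 x.1.2).map fun y => (y.1 * Q.W + y.2, x.2)

/-- The three packed parts and the bounds on their total weights. -/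
structure Tri3 where
  A : Nat
  P : Nat
  Y : Nat
  sA : Nat
  sP : Nat
  sY : Nat

/-- The packed child law. -/
def child (Q : PPar) (S E : Nat) : Tri3 :=
  ⟨lpack Q.bA (listU Q S), lpack Q.bA (listP Q.C S), Nat.shiftLeft E (Q.bA * (2 * Q.C.K)),
    lsum (listU Q S), lsum (listP Q.C S), E⟩

/-- One step of Horner's rule. -/
def hornStep (Q : PPar) (U : Tri3) (c : Nat) (T : Tri3) : Tri3 :=
  ⟨Nat.shiftLeft c (Q.bA * (Q.R * (Q.W + 1))) + crop2 Q (Q.C.K + Q.R) Q.R (U.A * T.A),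
    Nat.shiftLeft c (Q.bA * (2 * Q.R)) + crop1 Q (2 * (Q.C.K + Q.R)) (2 * Q.R) (U.P * T.P),
    crop1 Q (2 * (Q.C.K + Q.R)) (2 * Q.R) (U.P * T.Y + U.Y * T.P + U.Y * T.Y),
    c + U.sA * T.sA / 2 ^ Q.C.P, c + U.sP * T.sP / 2 ^ Q.C.P,
    (U.sP * T.sY + U.sY * T.sP + U.sY * T.sY) / 2 ^ Q.C.P⟩

/-- The truncated series. -/
def horner (Q : PPar) (U : Tri3) : List Nat → Tri3
  | [] => ⟨0, 0, 0, 0, 0, 0⟩
  | c :: l => hornStep Q U c (horner Q U l)

/-- The digits of a product do not overflow. -/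
def fits (Q : PPar) (U T : Tri3) : Bool :=
  Nat.blt (U.sA * T.sA) (2 ^ Q.bA) && Nat.blt (U.sP * T.sP) (2 ^ Q.bA) &&
    Nat.blt (U.sP * T.sY + U.sY * T.sP + U.sY * T.sY) (2 ^ Q.bA)

/-- The digits do not overflow in Horner's rule. -/
def hornOk (Q : PPar) (U : Tri3) : List Nat → Bool
  | [] => true
  | _ :: l => fits Q U (horner Q U l) && hornOk Q U l

/-- The square of a law at the centre `c`, cropped to radius `R`. -/
def sqr (Q : PPar) (c R : Nat) (T : Tri3) : Tri3 :=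
  ⟨crop2 Q (2 * c) R (T.A * T.A), crop1 Q (4 * c) (2 * R) (T.P * T.P),
    crop1 Q (4 * c) (2 * R) (2 * (T.P * T.Y) + T.Y * T.Y),
    T.sA * T.sA / 2 ^ Q.C.P, T.sP * T.sP / 2 ^ Q.C.P,
    (2 * (T.sP * T.sY) + T.sY * T.sY) / 2 ^ Q.C.P⟩

/-- The packed node law. -/
def node (Q : PPar) (S E : Nat) : Tri3 :=
  sqr Q Q.R2 (2 * Q.R2) (sqr Q Q.R Q.R2 (horner Q (child Q S E) Q.coef))

/-- No digit overflows in the node law. -/
def nodeOk (Q : PPar) (S E : Nat) : Bool :=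
  let U := child Q S E
  let T := horner Q U Q.coef
  let T2 := sqr Q Q.R Q.R2 T
  hornOk Q U Q.coef && fits Q T T && fits Q T2 T2

/-- The contribution of a node leaf. -/
def cP (Q : PPar) (a : PLeaf) : Nat :=
  a.mult * (rowN Q.C a.t0 + rowN Q.C a.t1) + Nat.shiftLeft a.mu (off Q.C)

/-- The contribution of an edge leaf. -/
def cQ (Q : PPar) (a : PEdge) : Nat :=
  3 * (rowN Q.C a.t0 + rowN Q.C a.t1) + Nat.shiftLeft a.mu (off Q.C)

/-- One generation. -/
def pstepOk (Q : PPar) (TN : Tr PLeaf) (TE : Tr PEdge) (S E S' E' : Nat) : Bool :=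
  let N := node Q S E
  let T := tread Q.bA (fun l x => cP Q l * x) Q.dN TN N.A +
    tread Q.bA (fun l x => cQ Q l * x) Q.dE TE N.Y
  let M := Nat.shiftRight T (off Q.C)
  let s := 3 * 2 ^ (Q.C.P + 40) - M
  nodeOk Q S E && Nat.blt N.sA (2 ^ Q.bA) && Nat.blt N.sY (2 ^ Q.bA) &&
    Nat.blt ((N.sA + N.sY) * 2 ^ Q.C.cb * 2 ^ 40 +
        3 * 2 ^ (Q.C.P + 40) * (sumT Q.ctg0 + sumT Q.ctg1)) (2 ^ Q.C.cw) &&
    Nat.ble M (3 * 2 ^ (Q.C.P + 40)) &&
    binsOk Q.C (6 * 2 ^ 80) Q.C.classes S'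
      (Nat.land T (mask (off Q.C)) * 2 ^ 40 + s * (rowN Q.C Q.ctg0 + rowN Q.C Q.ctg1)) &&
    Nat.ble (3 * E' * 2 ^ 80) (s * Q.ce)

/-- Targets below a channel image, scaled. -/
def chanOk (Q : PPar) (c : Nat) (ad wn wd x y z : Nat) (t : List (Nat × Nat × Nat)) : Bool :=
  let L := (Q.C.p * Q.C.q) ^ (3 * c) * 3 * ad * wd
  let m := 2 ^ 40 * wn * (Q.C.p * Q.C.q) ^ (3 * Q.C.K)
  let s := (ad + Q.an) * (x + y + z)
  tgOk Q.C t && Nat.ble (imgN Q.C 0 t * L) (m * (s - 3 * Q.an * x)) &&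
    Nat.ble (imgN Q.C 1 t * L) (m * (s - 3 * Q.an * y)) &&
    Nat.ble (imgN Q.C 2 t * L) (m * (s - 3 * Q.an * z))

/-- The weight of the first channel is `wA / wD`. -/
def wA (Q : PPar) : Nat := Q.Dd * Q.ad ^ 2

/-- The denominator of the weights of the channels. -/
def wD (Q : PPar) : Nat := Q.Dn * Q.an ^ 2

/-- Both channels at a point. -/
def pairOk (Q : PPar) (c x y z : Nat) (t0 t1 : List (Nat × Nat × Nat)) : Bool :=
  chanOk Q c Q.ad (wA Q) (wD Q) x y z t0 &&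
    chanOk Q c (2 * Q.ad) (wD Q - wA Q) (wD Q) x y z t1

/-- A node leaf is correct. -/
def pleafOk (Q : PPar) (a : PLeaf) (n : Nat) : Bool :=
  let c := 2 * Q.R2
  let x := powN Q.C (6 * c) (2 * a.A + 2 * c - a.B)
  let y := powN Q.C (6 * c) (2 * a.B + 2 * c - a.A)
  let z := powN Q.C (6 * c) (5 * c - a.A - a.B)
  Nat.beq n (a.A * Q.W + a.B) && Nat.ble a.A (2 * c) && Nat.ble a.B (2 * c) &&
    Nat.ble a.mult (sectN x y z) && pairOk Q c x y z a.t0 a.t1 &&
    Nat.ble (a.mult * (sumT a.t0 + sumT a.t1)) (2 ^ Q.C.cb) &&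
    Nat.ble (a.mult * (x + y + z) * 2 ^ 40) (a.mu * (Q.C.p * Q.C.q) ^ (3 * c))

/-- An edge leaf is correct. -/
def pedgeOk (Q : PPar) (a : PEdge) (n : Nat) : Bool :=
  let c := 2 * Q.R2
  let x := powN Q.C (12 * c) (3 * a.k)
  let y := (Q.C.p * Q.C.q) ^ (6 * c)
  Nat.beq n a.k && Nat.ble a.k (4 * c) && pairOk Q (2 * c) x y 0 a.t0 a.t1 &&
    Nat.ble (3 * (sumT a.t0 + sumT a.t1)) (2 ^ Q.C.cb) &&
    Nat.ble (3 * (x + y) * 2 ^ 40) (a.mu * y)

/-- The slice is valid: the channels, the windows, the corners. -/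
def pparOk (Q : PPar) : Bool :=
  parOk Q.C && Nat.blt 0 Q.bA && Nat.blt 0 Q.an && Nat.ble (2 * Q.an) Q.ad && Nat.blt 0 Q.Dd && Nat.blt 0 Q.Dn &&
    Nat.ble (wA Q) (wD Q) && Nat.ble Q.C.P Q.bA &&
    Nat.ble Q.R2 (2 * Q.R) && Nat.ble Q.C.K Q.R2 &&
    Nat.blt (4 * Q.R2) Q.W && Nat.blt (4 * Q.R + 2 * Q.C.K) Q.W &&
    Nat.ble ((4 * Q.R2 + 1) * Q.W) (2 ^ Q.dN) && Nat.ble (8 * Q.R2 + 1) (2 ^ Q.dE) &&
    pairOk Q 0 1 0 0 Q.ctg0 Q.ctg1 &&
    (Nat.beq Q.ce 0 ||
      (Nat.beq (2 * Q.an) Q.ad && Q.ctg0.isEmpty && Nat.ble (2 * Q.ce * wD Q) (2 ^ 40 * wA Q)))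

/-- A class is kept below `2 - chi` square, in units of `2 ^ (-40)`. -/
def chiN (C : Par) (A B : Nat) : Nat :=
  let x := powN C (6 * C.K) (2 * A + 2 * C.K - B)
  let y := powN C (6 * C.K) (2 * B + 2 * C.K - A)
  let z := powN C (6 * C.K) (5 * C.K - A - B)
  ((x + y + z) ^ 2 - (x ^ 2 + y ^ 2 + z ^ 2)) * 2 ^ 40 / ((x + y + z) * (C.p * C.q) ^ (3 * C.K))

/-- The weighted values of the classes. -/
def totChi (C : Par) : List (Nat × Nat) → Nat → Nat
  | [], _ => 0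
  | c :: l, S => Nat.land S (mask C.sb) * chiN C c.1 c.2 + totChi C l (Nat.shiftRight S C.sb)

/-- The magnetisation of the node is at most `xn / xd`. -/
def pfinOk (Q : PPar) (xn xd S E : Nat) : Bool :=
  Nat.blt 0 xd &&
    Nat.ble (2 ^ (Q.C.P + 41) * xd * Q.Dn)
      ((6 * totChi Q.C Q.C.classes S + 3 * E * 2 ^ 40) * xd * Q.Dn + 2 ^ (Q.C.P + 40) * xn * Q.Dd)

/-- Depth zero: the corners through both channels. -/
def pstartOk (Q : PPar) (S E : Nat) : Bool :=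
  let s := 3 * 2 ^ (Q.C.P + 40)
  Nat.blt (s * (sumT Q.ctg0 + sumT Q.ctg1)) (2 ^ Q.C.cw) &&
    binsOk Q.C (6 * 2 ^ 80) Q.C.classes S (s * (rowN Q.C Q.ctg0 + rowN Q.C Q.ctg1)) &&
    Nat.ble (3 * E * 2 ^ 80) (s * Q.ce)

/-- A change of lattice inside a slice. -/
def pswOk (Q Q' : PPar) (t : List (List (Nat × Nat × Nat))) (S E S' E' : Nat) : Bool :=
  Nat.beq Q.an Q'.an && Nat.beq Q.ad Q'.ad && Nat.beq Q.Dn Q'.Dn && Nat.beq Q.Dd Q'.Dd &&
    swOk Q.C Q'.C t S E S' E'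

/-- A multiple of the partial exponential series at `u / h`. -/
def eSum (u h : Nat) : Nat → Nat
  | 0 => 0
  | n + 1 => h * (n + 1) * eSum u h n + u ^ n * h * (n + 1)

/-- The product of the numbers up to `n`. -/
def fct : Nat → Nat
  | 0 => 1
  | n + 1 => (n + 1) * fct n

/-- An upper bound for `exp (u / h)` is `expUp u h / expDen h`. -/
def expUp (u h : Nat) : Nat := eSum u h 20 * 20 + u ^ 20 * 21

/-- See `expUp`. -/
def expDen (h : Nat) : Nat := h ^ 20 * fct 20 * 20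

/-- The coefficients are below the weights of the Poisson law with parameter `D / 4`. -/
def coefsOk (Q : PPar) : Nat → List Nat → Bool
  | _, [] => true
  | m, c :: l =>
      Nat.ble (c * fct m * (4 * Q.Dd) ^ m * expUp Q.Dn (8 * Q.Dd) ^ 2)
        (2 ^ Q.C.P * expDen (8 * Q.Dd) ^ 2 * Q.Dn ^ m) && coefsOk Q (m + 1) l

/-- The series is valid. -/
def pcoefOk (Q : PPar) : Bool := Nat.ble Q.Dn (8 * Q.Dd) && coefsOk Q 0 Q.coef

end Vale.P154.PD
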