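import Vale.Agent.P154.Pois.DE.Series
import Vale.Agent.P154.Lattice.Chain

/-!
# A checked chain serves a whole slice of mean degrees

For `r ≤ a` and `1 ≤ D r ^ 2`: the start, one generation, a change of lattice and the conclusion
for the tree with Poisson `(1 / r ^ 2)` offspring and eigenvalue `-r`.
-/

noncomputable section

namespace Vale.P154.PD

open Vale.P154.Lat Finset
open scoped ENNReal

/-- The packed child law is below both channels applied to some bound at depth `n`. -/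
def Inv (Q : PPar) (r : ℝ) (n S E : ℕ) : Prop :=
  ∃ l, NodeLow l (1 / r ^ 2) (-r) n ∧ ChildOk Q S E l

theorem wR_eq {Q : PPar} (f : PFacts Q) : wR Q = 1 / (DR Q * aR Q ^ 2) := by
  have := f.half
  have := f.an
  have h1 : (Q.ad : ℝ) ≠ 0 := Nat.cast_ne_zero.2 (by omega)
  have h2 : (Q.an : ℝ) ≠ 0 := Nat.cast_ne_zero.2 (by omega)
  have h3 : (Q.Dd : ℝ) ≠ 0 := Nat.cast_ne_zero.2 f.Dd.ne'
  have h4 : (Q.Dn : ℝ) ≠ 0 := Nat.cast_ne_zero.2 f.Dn.ne'
  simp only [wR, DR, aR, wA, wD, Nat.cast_mul, Nat.cast_pow]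
  field_simp

theorem lval_childL (Q : PPar) (S E : ℕ) (G : V3 → ℝ) :
    lval (childL Q S E) G = sval Q.C S E G := rfl

/-- Depth zero. -/
theorem inv_start {Q : PPar} (hQ : pparOk Q = true) {S E : ℕ} (h : pstartOk Q S E = true)
    (r : ℝ) : Inv Q r 0 S E := by
  have f := pfacts hQ
  refine ⟨[], nodeLow_nil _ _ _, fun G hG hs => ?_⟩
  simp only [pstartOk, Bool.and_eq_true, Nat.blt_eq, Nat.ble_eq] at h
  obtain ⟨⟨hsum, hbins⟩, hcor⟩ := h
  set ct := addL (rowL Q.ctg0) (rowL Q.ctg1) with hct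
  set s := 3 * 2 ^ (Q.C.P + 40) with hs_def
  have e : s * (rowN Q.C Q.ctg0 + rowN Q.C Q.ctg1) = pack Q.C.cw (ct.map (s * ·)) := by
    simp [hct, pack_smul, pack_addL, pack_rowL]
  rw [e] at hbins
  have hb := bins_dot Q.C (6 * 2 ^ 80) Q.C.classes S _ hbins
    (fun x hx => lt_of_le_of_lt ((le_sum _ x hx).trans (by
      simp [hct, sum_smul, sum_addL, sum_rowL])) hsum)
    (fun c => G (vec Q.C 1 c.1 c.2)) fun c => hG.nn _ (vec_nonneg f.par _ _ _)
  change _ ≤ dot _ (clsVal Q.C G) at hb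
  rw [List.sum_map_mul_left, dot_smul] at hb
  have hc := corner_le f hG hs
  rw [← hct, div_mul_eq_mul_div, ← add_div, div_le_iff₀ (by positivity)] at hc
  have hsc := mul_le_mul_of_nonneg_left hc (Nat.cast_nonneg (α := ℝ) s)
  have hE := mul_le_mul_of_nonneg_right ((Nat.cast_le (α := ℝ)).2 hcor) (hG.nn _ (eu_nonneg 0))
  rw [twoComp_eq hs, sval_sym f.par S E hs]
  set W := ((withW Q.C Q.C.classes S).map fun x => (x.2 : ℝ) * G (vec Q.C 1 x.1.1 x.1.2)).sum
  rw [hs_def] at hb hsc hE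
  simp only [Nat.cast_mul, Nat.cast_pow, Nat.cast_ofNat] at hb hsc hE
  rw [pow_add] at hb hsc hE
  simp only [lval, List.map_nil, List.sum_nil, zero_add]
  rw [div_mul_eq_mul_div, div_mul_eq_mul_div, ← add_div, div_le_iff₀ (by positivity)]
  refine le_of_mul_le_mul_left ?_ (show (0 : ℝ) < 2 ^ 80 by positivity)
  rw [show (80 : ℕ) = 40 + 40 from rfl, pow_add] at hb hE ⊢
  linarith

/-- One generation. -/
theorem inv_step {Q : PPar} (hQ : pparOk Q = true) (hc : pcoefOk Q = true) {TN : Tr PLeaf}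
    {TE : Tr PEdge} (hN : tall (pleafOk Q) Q.dN 0 TN = true)
    (hE : tall (pedgeOk Q) Q.dE 0 TE = true) {S E S' E' n : ℕ}
    (hstep : pstepOk Q TN TE S E S' E' = true) {r : ℝ} (hr : 0 < r) (hra : r ≤ aR Q)
    (hD : 1 ≤ DR Q * r ^ 2) (h : Inv Q r n S E) : Inv Q r (n + 1) S' E' := by
  have f := pfacts hQ
  obtain ⟨l, hl, hU⟩ := h
  refine ⟨nodeL Q S E, ?_, child_step f hN hE hstep⟩
  refine nodeLow_succ hr hra (aR_mem f).2 hD hl (pos_childL f.par S E)
    (fun G => sval_avg f.par S E G) (fun G hG hs => ?_) (mixes_nodeL f.par f.Dd hc S E)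
  rw [← wR_eq f]
  exact hU G hG hs

/-- A change of lattice. -/
theorem inv_switch {Q Q' : PPar} (hC : parOk Q.C = true) (hC' : parOk Q'.C = true)
    {t : List (List (ℕ × ℕ × ℕ))} {S E S' E' n : ℕ} (h : pswOk Q Q' t S E S' E' = true) {r : ℝ}
    (hI : Inv Q r n S E) : Inv Q' r n S' E' := by
  simp only [pswOk, swOk, Bool.and_eq_true, Nat.beq_eq, Nat.blt_eq, Nat.ble_eq] at h
  obtain ⟨⟨⟨⟨h1, h2⟩, h3⟩, h4⟩, ⟨⟨⟨hP, ht⟩, hsum⟩, hbins⟩, hE⟩ := h
  obtain ⟨l, hl, hU⟩ := hI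
  refine ⟨l, hl, fun F hF hs => ?_⟩
  have e : twoComp Q' l F = twoComp Q l F := by
    simp only [twoComp, wR, aR, wA, wD, h1, h2, h3, h4]
  rw [e]
  refine le_trans ?_ (hU F hF hs)
  obtain ⟨Z, e1, e2, -, e4⟩ := swTab_sound hC hC' hF hs Q.C.classes t S (fun _ h => h) ht
  rw [← e1] at hbins
  have hb := bins_dot Q'.C (2 ^ 40) Q'.C.classes S' Z hbins
    (fun x hx => lt_of_le_of_lt ((le_sum _ x hx).trans e2) hsum)
    (fun c => F (vec Q'.C 1 c.1 c.2)) fun c => hF.nn _ (vec_nonneg hC' _ _ _)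
  change _ ≤ dot Z (clsVal Q'.C F) at hb
  rw [List.sum_map_mul_left] at hb
  push_cast at hb
  rw [sval_sym hC' S' E' hs, sval_sym hC S E hs, ← hP]
  refine add_le_add (mul_le_mul_of_nonneg_left ?_ (by positivity))
    (mul_le_mul_of_nonneg_right ?_ (hF.nn _ (eu_nonneg 0)))
  · rw [div_le_iff₀ (by positivity)] at e4
    linarith
  · gcongr

theorem sym_chiC : Sym chiC := by
  intro π v
  have h1 := Equiv.sum_comp π v
  have h2 := Equiv.sum_comp π fun i => v i ^ 2
  simp only [Fin.sum_univ_three] at h1 h2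
  simp only [chiC, h1, h2]

theorem chiN_le {C : Par} (hC : parOk C = true) {A B : ℕ} (h : A ≤ 2 * C.K) (h' : B ≤ 2 * C.K) :
    (chiN C A B : ℝ) ≤ 2 ^ 40 * chiC (vec C 1 A B) := by
  obtain ⟨ex, ey, ez⟩ := vec_powN hC (m := 1) (A := A) (B := B) (by omega) (by omega)
  simp only [mul_one] at ex ey ez
  have hQ := pow_pos (pq_pos hC) (3 * C.K)
  simp only [chiN]
  set x := powN C (6 * C.K) (2 * A + 2 * C.K - B)
  set y := powN C (6 * C.K) (2 * B + 2 * C.K - A)
  set z := powN C (6 * C.K) (5 * C.K - A - B)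
  refine Nat.cast_div_le.trans (le_of_eq ?_)
  have hle : x ^ 2 + y ^ 2 + z ^ 2 ≤ (x + y + z) ^ 2 := by ring_nf; omega
  rw [Nat.cast_mul, Nat.cast_sub hle]
  push_cast [ex, ey, ez]
  have v0 : 0 < vec C 1 A B 0 + vec C 1 A B 1 + vec C 1 A B 2 := by
    have := sig_pos hC
    simp [vec]; positivity
  rw [chiC]
  rw [Nat.cast_mul] at hQ
  field_simp
  norm_num

theorem totChi_le {C : Par} (hC : parOk C = true) : ∀ (l : List (ℕ × ℕ)) (S : ℕ),
    (∀ c ∈ l, c ∈ C.classes) → (totChi C l S : ℝ) ≤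
      2 ^ 40 * ((withW C l S).map fun x => (x.2 : ℝ) * chiC (vec C 1 x.1.1 x.1.2)).sum
  | [], S, _ => by simp [totChi, withW]
  | c :: l, S, h => by
    have ih := totChi_le hC l (Nat.shiftRight S C.sb) fun x hx => h x (by simp [hx])
    obtain ⟨h1, h2, h3⟩ := class_mem hC (h c (by simp))
    have := mul_le_mul_of_nonneg_left (chiN_le hC (A := c.1) (B := c.2) (by omega) (by omega))
      (Nat.cast_nonneg (α := ℝ) (Nat.land S (mask C.sb)))
    simp only [totChi, withW, List.map_cons, List.sum_cons, Nat.cast_add, Nat.cast_mul, mul_add]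
    linarith

/-- The magnetisation of the node from the child law. -/
theorem small_of_inv {Q : PPar} (hQ : pparOk Q = true) {S E n xn xd : ℕ}
    (hf : pfinOk Q xn xd S E = true) {r : ℝ} (hr : 0 < r) (hra : r ≤ aR Q)
    (hD : 1 ≤ DR Q * r ^ 2) (h : Inv Q r n S E) :
    gwE (poisWeight (1 / r ^ 2)) n (fun t => ENNReal.ofReal (xTree 3 (-r) n t)) ≤
      ENNReal.ofReal ((xn : ℝ) / xd) := by
  have f := pfacts hQ
  obtain ⟨ha0, ha2⟩ := aR_mem f
  obtain ⟨l, hl, hU⟩ := h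
  have hlow := child_low hr hra ha2 hD hl (fun G => sval_avg f.par S E G)
    (fun G hG hs => by rw [← wR_eq f]; exact hU G hG hs) conc_chiC (U := childL Q S E)
  set d := 1 / r ^ 2 with hd
  set lam := -r with hlam
  have h0 : -(1 / 2) ≤ lam := by linarith
  have h1 : lam ≤ 1 := by linarith
  have hd0 : 0 ≤ d := by positivity
  set θ := 1 / (DR Q * r ^ 2) with hθ
  have hDp : 0 < DR Q := by
    unfold DR; exact div_pos (Nat.cast_pos.2 f.Dn) (Nat.cast_pos.2 f.Dd)
  have hθ0 : 0 ≤ θ := by positivity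
  have hθ1 : θ ≤ 1 := by rw [hθ, div_le_one (by positivity)]; exact hD
  set X := gwE (poisWeight d) n (fun t => ENNReal.ofReal (xTree 3 lam n t)) with hX
  have hl0 := lik_nn h0 h1 n
  have hc : ∀ t, 0 ≤ ∑ s : Cfg 3 n t, chiC (chan lam (lik lam n t s)) := fun t =>
    Finset.sum_nonneg fun s _ => (Conc.chanv conc_chiC h0 h1).nn _ (hl0 t s)
  have hx0 : ∀ t, 0 ≤ lam ^ 2 * xTree 3 lam n t := fun t =>
    mul_nonneg (sq_nonneg _) (xTree_nonneg (by norm_num) (by norm_num; linarith) h1 n t)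
  have per : ∀ t : PTree n,
      ∑ s : Cfg 3 n t, chiC (chan lam (lik lam n t s)) + lam ^ 2 * xTree 3 lam n t = 2 := by
    intro t
    have hm := sum_mass (q := 3) lam n t
    push_cast at hm
    rw [xTree, Finset.mul_sum, ← Finset.sum_add_distrib, show (2 : ℝ) = 2 * ∑ s : Cfg 3 n t,
      (∑ i, lik lam n t s i) / 3 by rw [hm]; norm_num, Finset.mul_sum]
    refine Finset.sum_congr rfl fun s _ => ?_
    simp only [chiC, chan_three, Fin.sum_univ_three]
    push_cast
    rcases (show 0 ≤ lik lam n t s 0 + lik lam n t s 1 + lik lam n t s 2 by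
      linarith [hl0 t s 0, hl0 t s 1, hl0 t s 2]).eq_or_lt with h | h
    · have a0 : lik lam n t s 0 = 0 := by linarith [hl0 t s 0, hl0 t s 1, hl0 t s 2]
      have a1 : lik lam n t s 1 = 0 := by linarith [hl0 t s 0, hl0 t s 1, hl0 t s 2]
      have a2 : lik lam n t s 2 = 0 := by linarith [hl0 t s 0, hl0 t s 1, hl0 t s 2]
      simp [a0, a1, a2]
    · have eS : ∀ u v w : ℝ, lam * u + (1 - lam) * ((u + v + w) / 3) +
          (lam * v + (1 - lam) * ((u + v + w) / 3)) + (lam * w + (1 - lam) * ((u + v + w) / 3)) =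
          u + v + w := fun u v w => by ring
      rw [eS]
      field_simp
      ring
  have two' : nodeE d lam n (fun v => chiC (chan lam v)) + ENNReal.ofReal (lam ^ 2) * X =
      ENNReal.ofReal 2 := by
    have h1' := gwE_one (poisWeight_nonneg hd0) (tsum_poisWeight hd0) n
    rw [← one_mul (ENNReal.ofReal 2), ← h1', hX]
    simp only [nodeE, gwE, ← ENNReal.tsum_mul_left, ← ENNReal.tsum_mul_right, ← ENNReal.tsum_add]
    refine tsum_congr fun t => ?_
    rw [mul_one, mul_left_comm, ← mul_add, ← ENNReal.ofReal_mul (sq_nonneg _),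
      ← ENNReal.ofReal_add (hc t) (hx0 t), per]
  have hpad : padE d lam θ n chiC + ENNReal.ofReal θ * (ENNReal.ofReal (lam ^ 2) * X) =
      ENNReal.ofReal 2 := by
    have e1 : chiC (fun _ => 1) = 2 := by simp [chiC]; norm_num
    rw [padE, e1, add_assoc, ← mul_add, two', ← add_mul,
      ← ENNReal.ofReal_add (sub_nonneg.2 hθ1) hθ0, sub_add_cancel, ENNReal.ofReal_one, one_mul]
  have hXt : X ≠ ⊤ := by
    intro hX'
    have hp : ENNReal.ofReal θ * ENNReal.ofReal (lam ^ 2) ≠ 0 := by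
      rw [← ENNReal.ofReal_mul hθ0, Ne, ENNReal.ofReal_eq_zero, not_le]
      simp only [hθ, hlam]
      have : 0 < (-r) ^ 2 := by nlinarith
      positivity
    rw [← mul_assoc, hX', ENNReal.mul_top hp, add_top] at hpad
    exact ENNReal.ofReal_ne_top hpad.symm
  have hsum : ENNReal.ofReal (lval (childL Q S E) chiC + θ * lam ^ 2 * X.toReal) ≤
      ENNReal.ofReal 2 := by
    refine ENNReal.ofReal_add_le.trans (le_trans (add_le_add hlow (le_of_eq ?_)) hpad.le)
    rw [ENNReal.ofReal_mul (mul_nonneg hθ0 (sq_nonneg _)), ENNReal.ofReal_mul hθ0,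
      ENNReal.ofReal_toReal hXt, mul_assoc]
  rw [ENNReal.ofReal_le_ofReal_iff (by norm_num), lval_childL, sval_sym f.par S E sym_chiC] at hsum
  have he : chiC (eu 0) = 1 := by norm_num [chiC, eu, Fin.ext_iff]
  rw [he, mul_one] at hsum
  simp only [pfinOk, Bool.and_eq_true, Nat.blt_eq, Nat.ble_eq] at hf
  obtain ⟨hxd, hf⟩ := hf
  have hf' := (Nat.cast_le (α := ℝ)).2 hf
  push_cast at hf'
  have ht := totChi_le f.par Q.C.classes S fun _ h => h
  set W := ((withW Q.C Q.C.classes S).map fun x => (x.2 : ℝ) * chiC (vec Q.C 1 x.1.1 x.1.2)).sum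
    with hW
  have hθlam : θ * lam ^ 2 = (Q.Dd : ℝ) / Q.Dn := by
    simp only [hθ, hlam, DR]; field_simp
  rw [hθlam, div_mul_eq_mul_div, ← add_div, div_mul_eq_mul_div, div_add_div _ _ (by positivity)
    (Nat.cast_ne_zero.2 f.Dn.ne'), div_le_iff₀ (by
      have := (Nat.cast_pos (α := ℝ)).2 f.Dn
      positivity)] at hsum
  refine (ENNReal.le_ofReal_iff_toReal_le hXt (by positivity)).2 ?_
  have hxdR : (0 : ℝ) < xd := Nat.cast_pos.2 hxd
  rw [le_div_iff₀ hxdR]
  refine le_of_mul_le_mul_left ?_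
    (show (0 : ℝ) < 2 ^ Q.C.P * 2 ^ 40 * Q.Dd by
      have := (Nat.cast_pos (α := ℝ)).2 f.Dd
      positivity)
  have k := mul_le_mul_of_nonneg_left ht (show (0 : ℝ) ≤ 6 * (xd * Q.Dn) by positivity)
  have k2 := mul_le_mul_of_nonneg_left hsum (show (0 : ℝ) ≤ 2 ^ 40 * xd by positivity)
  rw [pow_add, show (41 : ℕ) = 40 + 1 from rfl, pow_add, pow_add] at hf'
  ring_nf at k k2 hf' ⊢
  linarith

end Vale.P154.PD
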