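import Vale.Agent.P154.Pois.DE.Node

/-!
# The exact node law and its packed lower bound

`nodeL` is Horner's rule and two squarings on lists of real vectors.  `Good` says that a packed
triple is below such a list: the part without excluded colour, its projection, and the part
excluding the last colour.
-/

noncomputable section

namespace Vale.P154.PD

open Vale.P154.Lat Finset

theorem geom_nonneg_weight (w : ℕ) (P : ℕ) : (0 : ℝ) ≤ (w : ℝ) / 2 ^ P := by positivity

/-- The constant vector with weight `c`. -/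
def onesL (Q : PPar) (c : ℕ) : List (ℝ × V3) := [((c : ℝ) / 2 ^ Q.C.P, fun _ => 1)]

/-- The child vectors. -/
def childL (Q : PPar) (S E : ℕ) : List (ℝ × V3) :=
  realA Q.C S ++ realB Q.C E 0 ++ realB Q.C E 1 ++ realB Q.C E 2

/-- The exact series. -/
def hornL (Q : PPar) (U : List (ℝ × V3)) : List ℕ → List (ℝ × V3)
  | [] => []
  | c :: l => onesL Q c ++ lmul U (hornL Q U l)

/-- The exact node law. -/
def nodeL (Q : PPar) (S E : ℕ) : List (ℝ × V3) :=
  let T := hornL Q (childL Q S E) Q.coef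
  lmul (lmul T T) (lmul T T)

theorem pos_onesL (Q : PPar) (c : ℕ) : Pos (onesL Q c) := by
  intro x hx
  simp only [onesL, List.mem_singleton] at hx
  subst hx
  exact ⟨by positivity, fun _ => zero_le_one⟩

theorem pos_childL {Q : PPar} (hC : parOk Q.C = true) (S E : ℕ) : Pos (childL Q S E) :=
  pos_append (pos_append (pos_append (pos_realA hC S) (pos_realB Q.C E 0)) (pos_realB Q.C E 1))
    (pos_realB Q.C E 2)

theorem pos_hornL (Q : PPar) {U : List (ℝ × V3)} (hU : Pos U) : ∀ l, Pos (hornL Q U l)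
  | [] => by simp [hornL, Pos]
  | c :: l => pos_append (pos_onesL Q c) (pos_lmul hU (pos_hornL Q hU l))

theorem pos_nodeL {Q : PPar} (hC : parOk Q.C = true) (S E : ℕ) : Pos (nodeL Q S E) :=
  pos_lmul (pos_lmul (pos_hornL Q (pos_childL hC S E) _) (pos_hornL Q (pos_childL hC S E) _))
    (pos_lmul (pos_hornL Q (pos_childL hC S E) _) (pos_hornL Q (pos_childL hC S E) _))

theorem LowA.add {Q : PPar} {c s s' : ℕ} {L L' : List ℕ} {l l' : List (ℝ × V3)}
    (h : LowA Q c L s l) (h' : LowA Q c L' s' l') : LowA Q c (addL L L') (s + s') (l ++ l') := by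
  refine ⟨fun F => ?_, fun H hH => ?_, ?_⟩
  · rw [dot_addL, dot_addL, ← h.win, ← h'.win]
  · rw [dot_addL, add_div, lval_append]; exact add_le_add (h.le H hH) (h'.le H hH)
  · rw [sum_addL]; exact add_le_add h.sum h'.sum

theorem LowE.add {Q : PPar} {c s s' : ℕ} {L L' : List ℕ} {l l' : List (ℝ × V3)}
    (h : LowE Q c L s l) (h' : LowE Q c L' s' l') : LowE Q c (addL L L') (s + s') (l ++ l') := by
  refine ⟨fun F => ?_, fun H hH => ?_, ?_⟩
  · rw [dot_addL, dot_addL, ← h.win, ← h'.win]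
  · rw [dot_addL, add_div, lval_append]; exact add_le_add (h.le H hH) (h'.le H hH)
  · rw [sum_addL]; exact add_le_add h.sum h'.sum

/-- The data of a packed lower bound. -/
structure GoodData (Q : PPar) (c : ℕ) (T : Tri3) (L A : List (ℝ × V3))
    (B : Fin 3 → List (ℝ × V3)) (P Y : List (ℝ × V3)) : Prop where
  pA : Pos A
  pB : ∀ g, Pos (B g)
  pP : Pos P
  pY : Pos Y
  dom : ∀ H : V3 → ℝ, (∀ v, (∀ i, 0 ≤ v i) → 0 ≤ H v) →
    lval A H + (lval (B 0) H + lval (B 1) H + lval (B 2) H) ≤ lval L H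
  imgA : ∀ π, Img π A A
  imgB : ∀ π g, Img π (B (π.symm g)) (B g)
  killed : Killed (B 2)
  dzA : Dz A P
  dzB : Dz (B 2) Y
  lowA : ∃ l, pack Q.bA l = T.A ∧ LowA Q c l T.sA A
  lowP : ∃ l, pack Q.bA l = T.P ∧ LowE Q c l T.sP P
  lowY : ∃ l, pack Q.bA l = T.Y ∧ LowE Q c l T.sY Y

/-- A packed triple is below the list `L`. -/
def Good (Q : PPar) (c : ℕ) (T : Tri3) (L : List (ℝ × V3)) : Prop :=
  ∃ A B P Y, GoodData Q c T L A B P Y

theorem dz_nil : Dz [] [] := fun G _ => le_rfl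

theorem killed_nil : Killed [] := by simp [Killed]

theorem good_nil (Q : PPar) (c : ℕ) : Good Q c ⟨0, 0, 0, 0, 0, 0⟩ [] := by
  refine ⟨[], fun _ => [], [], [], ⟨by simp [Pos], fun _ => by simp [Pos], by simp [Pos],
    by simp [Pos], fun H _ => by simp [lval], fun π F => by simp [lval],
    fun π g F => by simp [lval], killed_nil, dz_nil, dz_nil,
    ⟨[], rfl, ⟨fun F => rfl, fun H _ => by simp [dot, lval], le_rfl⟩⟩,
    ⟨[], rfl, ⟨fun F => rfl, fun H _ => by simp [dot, lval], le_rfl⟩⟩,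
    ⟨[], rfl, ⟨fun F => rfl, fun H _ => by simp [dot, lval], le_rfl⟩⟩⟩⟩

/-- The part excluding a colour in a product. -/
def cross (A B A' B' : List (ℝ × V3)) : List (ℝ × V3) := lmul A B' ++ lmul B A' ++ lmul B B'

theorem prod_ge {A A' : List (ℝ × V3)} {B B' : Fin 3 → List (ℝ × V3)} (hB : ∀ g, Pos (B g))
    (hB' : ∀ g, Pos (B' g)) {H : V3 → ℝ} (hH : ∀ v, (∀ i, 0 ≤ v i) → 0 ≤ H v) :
    lval (lmul A A') H + (lval (cross A (B 0) A' (B' 0)) H + lval (cross A (B 1) A' (B' 1)) H +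
        lval (cross A (B 2) A' (B' 2)) H) ≤
      lval (lmul (A ++ B 0 ++ B 1 ++ B 2) (A' ++ B' 0 ++ B' 1 ++ B' 2)) H := by
  have e : ∀ g g', 0 ≤ two (lval (B g)) (lval (B' g')) H := fun g g' => by
    rw [← lval_lmul]; exact lval_nonneg (pos_lmul (hB g) (hB' g')) hH
  have := e 0 1; have := e 0 2; have := e 1 0; have := e 1 2; have := e 2 0; have := e 2 1
  simp only [cross, lval_append, lval_lmul]
  simp only [two, lval_append, lval_add] at *
  linarith

theorem killed_cross {A B A' B' : List (ℝ × V3)} (hB : Killed B) (hB' : Killed B') :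
    Killed (cross A B A' B') := by
  intro z hz
  rcases List.mem_append.1 hz with h | h
  · rcases List.mem_append.1 h with h | h
    · obtain ⟨x, -, h⟩ := List.mem_flatMap.1 h
      obtain ⟨y, hy, rfl⟩ := List.mem_map.1 h
      simp [hB' y hy]
    · obtain ⟨x, hx, h⟩ := List.mem_flatMap.1 h
      obtain ⟨y, -, rfl⟩ := List.mem_map.1 h
      simp [hB x hx]
  · obtain ⟨x, hx, h⟩ := List.mem_flatMap.1 h
    obtain ⟨y, -, rfl⟩ := List.mem_map.1 h
    simp [hB x hx]

/-- The cropped product of two packed lower bounds. -/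
theorem Good.mul {Q : PPar} (hC : parOk Q.C = true) (hK : 0 < Q.bA) (hP : Q.C.P ≤ Q.bA)
    {c c' R : ℕ} {T T' : Tri3} {L L' : List (ℝ × V3)} (hL : Pos L)
    (h : Good Q c T L) (h' : Good Q c' T' L') (hR : R ≤ c + c')
    (hw : c + c' + R < Q.W) (hw2 : 2 * c + 2 * c' < Q.W)
    (hl : 2 * (c + c') + 2 * R < lineW Q) (hf : fits Q T T' = true) :
    Good Q R ⟨crop2 Q (c + c') R (T.A * T'.A), crop1 Q (2 * (c + c')) (2 * R) (T.P * T'.P),
      crop1 Q (2 * (c + c')) (2 * R) (T.P * T'.Y + T.Y * T'.P + T.Y * T'.Y),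
      T.sA * T'.sA / 2 ^ Q.C.P, T.sP * T'.sP / 2 ^ Q.C.P,
      (T.sP * T'.sY + T.sY * T'.sP + T.sY * T'.sY) / 2 ^ Q.C.P⟩ (lmul L L') := by
  obtain ⟨A, B, P, Y, g⟩ := h
  obtain ⟨A', B', P', Y', g'⟩ := h'
  simp only [fits, Bool.and_eq_true, Nat.blt_eq] at hf
  obtain ⟨⟨fA, fP⟩, fY⟩ := hf
  obtain ⟨a, ea, la⟩ := g.lowA
  obtain ⟨a', ea', la'⟩ := g'.lowA
  obtain ⟨p, ep, lp⟩ := g.lowP
  obtain ⟨p', ep', lp'⟩ := g'.lowP
  obtain ⟨y, ey, ly⟩ := g.lowY
  obtain ⟨y', ey', ly'⟩ := g'.lowY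
  have sum2 : ∀ {u v su sv : _}, u.sum ≤ su → v.sum ≤ sv → (convL u v).sum ≤ su * sv := by
    intro u v su sv h1 h2; rw [sum_convL]; exact Nat.mul_le_mul h1 h2
  have dig : ∀ {u : List ℕ} {su : ℕ}, u.sum ≤ su → su < 2 ^ Q.bA → ∀ x ∈ u, x < 2 ^ Q.bA :=
    fun h1 h2 x hx => lt_of_le_of_lt ((le_sum _ x hx).trans h1) h2
  obtain ⟨nA, enA, lnA, -⟩ := lowA_crop hK hP (p := convL a a') (l := lmul A A') (c := c + c')
    (R := R) (dig (sum2 la.sum la'.sum) fA) hR hw (sum2 la.sum la'.sum)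
    (fun H hH => la.conv hC g.pA la' hw2 H hH) hC
  obtain ⟨nP, enP, lnP, -⟩ := lowE_crop hK hP (p := convL p p') (l := lmul P P') (c := c + c')
    (R := R) (dig (sum2 lp.sum lp'.sum) fP) hR hl (sum2 lp.sum lp'.sum)
    (fun H hH => lp.conv hC g.pP lp' H hH) hC
  have sY : (addL (addL (convL p y') (convL y p')) (convL y y')).sum ≤
      T.sP * T'.sY + T.sY * T'.sP + T.sY * T'.sY := by
    rw [sum_addL, sum_addL]
    exact add_le_add (add_le_add (sum2 lp.sum ly'.sum) (sum2 ly.sum lp'.sum))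
      (sum2 ly.sum ly'.sum)
  obtain ⟨nY, enY, lnY, -⟩ := lowE_crop hK hP (p := addL (addL (convL p y') (convL y p')) (convL y y'))
    (l := cross P Y P' Y') (c := c + c') (R := R) (dig sY fY) hR hl sY
    (fun H hH => by
      simp only [cross, dot_addL, lval_append]
      have h1 := lp.conv hC g.pP ly' H hH
      have h2 := ly.conv hC g.pY lp' H hH
      have h3 := ly.conv hC g.pY ly' H hH
      linarith) hC
  refine ⟨lmul A A', fun k => cross A (B k) A' (B' k), lmul P P', cross P Y P' Y', ⟨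
    pos_lmul g.pA g'.pA, fun k => pos_append (pos_append (pos_lmul g.pA (g'.pB k))
      (pos_lmul (g.pB k) g'.pA)) (pos_lmul (g.pB k) (g'.pB k)),
    pos_lmul g.pP g'.pP, pos_append (pos_append (pos_lmul g.pP g'.pY) (pos_lmul g.pY g'.pP))
      (pos_lmul g.pY g'.pY), fun H hH => ?_, fun π => (g.imgA π).mul (g'.imgA π),
    fun π k => (((g.imgA π).mul (g'.imgB π k)).append ((g.imgB π k).mul (g'.imgA π))).append
      ((g.imgB π k).mul (g'.imgB π k)),
    killed_cross g.killed g'.killed, Dz.mul g.pA g'.pP g.dzA g'.dzA,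
    ((Dz.mul g.pA g'.pY g.dzA g'.dzB).append (Dz.mul (g.pB 2) g'.pP g.dzB g'.dzA)).append
      (Dz.mul (g.pB 2) g'.pY g.dzB g'.dzB),
    ⟨nA, by rw [enA, pack_convL, ea, ea'], lnA⟩, ⟨nP, by rw [enP, pack_convL, ep, ep'], lnP⟩,
    ⟨nY, by rw [enY, pack_addL, pack_addL, pack_convL, pack_convL, pack_convL, ep, ey', ey, ep'],
      lnY⟩⟩⟩
  have pD : Pos (A' ++ B' 0 ++ B' 1 ++ B' 2) :=
    pos_append (pos_append (pos_append g'.pA (g'.pB 0)) (g'.pB 1)) (g'.pB 2)
  refine (prod_ge g.pB g'.pB hH).trans ?_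
  rw [lval_lmul, lval_lmul]
  unfold two
  have h1 := g.dom (fun u => lval (A' ++ B' 0 ++ B' 1 ++ B' 2) fun b => H fun i => u i * b i)
    fun u hu => lval_nonneg pD fun b hb => hH _ fun i => mul_nonneg (hu i) (hb i)
  simp only [lval_append] at h1 ⊢
  refine le_trans (by linarith) ((finitary_lval hL).mono _ _ fun u hu => ?_)
  have := g'.dom (fun b => H fun i => u i * b i) fun b hb => hH _ fun i => mul_nonneg (hu i) (hb i)
  linarith

theorem Good.sqr {Q : PPar} (hC : parOk Q.C = true) (hK : 0 < Q.bA) (hP : Q.C.P ≤ Q.bA)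
    {c R : ℕ} {T : Tri3} {L : List (ℝ × V3)} (hL : Pos L) (h : Good Q c T L) (hR : R ≤ 2 * c)
    (hw : 2 * c + R < Q.W) (hw2 : 4 * c < Q.W) (hl : 4 * c + 2 * R < lineW Q)
    (hf : fits Q T T = true) : Good Q R (PD.sqr Q c R T) (lmul L L) := by
  have := h.mul hC hK hP hL h (R := R) (by omega) (by omega) (by omega) (by omega) hf
  convert this using 1
  simp only [PD.sqr, Tri3.mk.injEq]
  refine ⟨by rw [two_mul], by ring_nf, by ring_nf, trivial, trivial, by ring_nf⟩

/-- The constant vector. -/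
theorem good_ones (Q : PPar) (hC : parOk Q.C = true) {R : ℕ} (hR : 2 * R < Q.W) (c : ℕ) :
    Good Q R ⟨Nat.shiftLeft c (Q.bA * (R * (Q.W + 1))), Nat.shiftLeft c (Q.bA * (2 * R)), 0, c, c, 0⟩
      (onesL Q c) := by
  have hp : ∀ q, pack Q.bA (List.replicate q 0 ++ [c]) = Nat.shiftLeft c (Q.bA * q) := fun q => by
    simp [pack_append, pack_replicate_zero, pack, Nat.shiftLeft_eq', Nat.shiftLeft_eq, mul_comm]
  have hd : ∀ q (F : ℕ → ℝ), dot (List.replicate q 0 ++ [c]) F = c * F q := fun q F => by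
    simp [dot_append, dot_replicate_zero, dot]
  have hmod : R * (Q.W + 1) % Q.W = R := by
    rw [Nat.mul_succ, mul_comm R, Nat.mul_add_mod, Nat.mod_eq_of_lt (by omega)]
  have hdiv : R * (Q.W + 1) / Q.W = R := by
    rw [Nat.mul_succ, mul_comm R, Nat.mul_add_div (by omega), Nat.div_eq_of_lt (by omega), add_zero]
  have pone : pv Q R (R * (Q.W + 1)) = fun _ => 1 := by
    funext a
    simp only [pv, hmod, hdiv, vec, unit]
    fin_cases a <;> simp <;> ring_nf <;> simp
  have eone : ev Q R (2 * R) = fun i => (1 : ℝ) * eu 2 i := by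
    funext a
    simp only [ev, vP, unit]
    fin_cases a <;> simp [eu] <;> ring_nf <;> simp
  set A := onesL Q c with hA
  set P : List (ℝ × V3) := [((c : ℝ) / 2 ^ Q.C.P, fun i => (1 : ℝ) * eu 2 i)] with hPdef
  refine ⟨A, fun _ => [], P, [], ⟨pos_onesL Q c, fun _ => by simp [Pos], ?_, by simp [Pos],
    fun H _ => by simp [lval, hA], fun π F => by simp [lval, hA, onesL],
    fun π g F => by simp [lval], killed_nil, fun G _ => by simp [lval, hA, onesL, hPdef], dz_nil,
    ⟨_, hp _, ?_⟩, ⟨_, hp _, ?_⟩, ⟨[], rfl, ⟨fun F => rfl, fun H _ => by simp [dot, lval], le_rfl⟩⟩⟩⟩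
  · intro x hx
    simp only [hPdef, List.mem_singleton] at hx
    subst hx
    exact ⟨by positivity, fun i => by simpa using eu_nonneg 2 i⟩
  · refine ⟨fun F => ?_, fun H _ => ?_, by simp⟩
    · rw [hd, hd, hmod, hdiv, if_pos (by omega)]
    · rw [hd, pone]; simp [hA, onesL, lval, div_mul_eq_mul_div]
  · refine ⟨fun F => ?_, fun H _ => ?_, by simp⟩
    · rw [hd, hd, if_pos (by omega)]
    · rw [hd, eone]; simp [hPdef, lval, div_mul_eq_mul_div]

theorem Good.add {Q : PPar} {c : ℕ} {T T' : Tri3} {L L' : List (ℝ × V3)} (h : Good Q c T L)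
    (h' : Good Q c T' L') :
    Good Q c ⟨T.A + T'.A, T.P + T'.P, T.Y + T'.Y, T.sA + T'.sA, T.sP + T'.sP, T.sY + T'.sY⟩
      (L ++ L') := by
  obtain ⟨A, B, P, Y, g⟩ := h
  obtain ⟨A', B', P', Y', g'⟩ := h'
  obtain ⟨a, ea, la⟩ := g.lowA
  obtain ⟨a', ea', la'⟩ := g'.lowA
  obtain ⟨p, ep, lp⟩ := g.lowP
  obtain ⟨p', ep', lp'⟩ := g'.lowP
  obtain ⟨y, ey, ly⟩ := g.lowY
  obtain ⟨y', ey', ly'⟩ := g'.lowY
  refine ⟨A ++ A', fun k => B k ++ B' k, P ++ P', Y ++ Y', ⟨pos_append g.pA g'.pA,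
    fun k => pos_append (g.pB k) (g'.pB k), pos_append g.pP g'.pP, pos_append g.pY g'.pY,
    fun H hH => ?_, fun π => (g.imgA π).append (g'.imgA π),
    fun π k => (g.imgB π k).append (g'.imgB π k), ?_, g.dzA.append g'.dzA, g.dzB.append g'.dzB,
    ⟨_, by rw [pack_addL, ea, ea'], la.add la'⟩, ⟨_, by rw [pack_addL, ep, ep'], lp.add lp'⟩,
    ⟨_, by rw [pack_addL, ey, ey'], ly.add ly'⟩⟩⟩
  · have := g.dom H hH
    have := g'.dom H hH
    simp only [lval_append] at *
    linarith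
  · intro z hz
    rcases List.mem_append.1 hz with h | h
    · exact g.killed z h
    · exact g'.killed z h

/-- The child law. -/
theorem good_child {Q : PPar} (hC : parOk Q.C = true) (hW : 2 * Q.C.K < Q.W) (S E : ℕ) :
    Good Q Q.C.K (child Q S E) (childL Q S E) := by
  have eP : ∀ k, ev Q Q.C.K k = vP Q.C 1 k := vP_unit Q.C
  have emem : ∀ x ∈ listU Q S, x.1 % Q.W ≤ 2 * Q.C.K ∧ x.1 / Q.W ≤ 2 * Q.C.K := by
    intro x hx
    obtain ⟨z, hz, hx⟩ := List.mem_flatMap.1 hx
    obtain ⟨y, hy, rfl⟩ := List.mem_map.1 hx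
    obtain ⟨h1, h2⟩ := images_bound (class_mem hC (withW_mem _ _ _ hz)) hy
    dsimp only
    rw [mul_comm, Nat.mul_add_mod, Nat.mul_add_div (by omega), Nat.mod_eq_of_lt (by omega),
      Nat.div_eq_of_lt (by omega), add_zero]
    exact ⟨h2, h1⟩
  have eU : listU Q S = (atoms Q.C S).map fun x => (x.1.1 * Q.W + x.1.2, x.2) := by
    simp [listU, atoms, List.map_flatMap, Function.comp_def]
  have hPmem : ∀ x ∈ listP Q.C S, x.1 ≤ 4 * Q.C.K := by
    intro x hx
    rw [listP_eq] at hx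
    obtain ⟨z, hz, rfl⟩ := List.mem_map.1 hx
    have := atoms_bound hC hz
    simp only
    omega
  refine ⟨realA Q.C S, realB Q.C E, realP Q.C S, realB Q.C E 2, ⟨pos_realA hC S, pos_realB Q.C E,
    pos_realP hC S, pos_realB Q.C E 2, fun H _ => by simp [childL, lval_append, add_assoc],
    fun π F => (realA_perm hC S F π).symm, fun π g => img_realB Q.C E π g,
    killed_realB Q.C E, dz_realA hC S, dz_realB Q.C E,
    ⟨ldense (listU Q S), pack_ldense _ _, ?_⟩,
    ⟨ldense (listP Q.C S), pack_ldense _ _, ?_⟩,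
    ⟨denseE Q.C E, pack_denseE _ _ _, ?_⟩⟩⟩
  · refine ⟨fun F => ?_, fun H _ => ?_, (sum_ldense _).le⟩
    · rw [dot_ldense, dot_ldense]
      exact ldot_congr fun x hx => (if_pos (emem x hx)).symm
    · rw [dot_ldense]
      have key : ∀ l : List ((ℕ × ℕ) × ℕ), (∀ x ∈ l, x.1.2 < Q.W) →
          ldot (l.map fun x => (x.1.1 * Q.W + x.1.2, x.2)) (fun i => H (pv Q Q.C.K i)) / 2 ^ Q.C.P =
          lval (l.map fun x => ((x.2 : ℝ) / 2 ^ Q.C.P, vec Q.C 1 x.1.1 x.1.2)) H := by
        intro l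
        induction l with
        | nil => simp [lval, ldot]
        | cons a l ih =>
          intro h
          have e : pv Q Q.C.K (a.1.1 * Q.W + a.1.2) = vec Q.C 1 a.1.1 a.1.2 := by
            have ha := h a (by simp)
            unfold pv
            rw [mul_comm, Nat.mul_add_mod, Nat.mul_add_div (by omega), Nat.div_eq_of_lt ha,
              Nat.mod_eq_of_lt ha, add_zero, vec_unit]
          have := ih fun x hx => h x (by simp [hx])
          simp only [lval, List.map_cons, List.sum_cons, ldot, e] at this ⊢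
          rw [← this]; ring
      rw [eU, key _ fun x hx => by have := (atoms_bound hC hx).2; omega]
      exact le_rfl
  · refine ⟨fun F => ?_, fun H _ => ?_, (sum_ldense _).le⟩
    · rw [dot_ldense, dot_ldense]
      exact ldot_congr fun x hx => (if_pos (hPmem x hx)).symm
    · have h := rep_realP hC S H
      rw [one_mul] at h
      simp only [eP]
      exact h.symm.le
  · refine ⟨fun F => ?_, fun H _ => ?_, by simp [denseE, child]⟩
    · simp only [denseE, dot_append, dot_replicate_zero, dot, List.length_replicate]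
      rw [if_pos (by omega)]
    · have h := rep_realB Q.C E H
      rw [one_mul] at h
      simp only [eP]
      exact h.symm.le

/-- Horner's rule. -/
theorem good_horner {Q : PPar} (hC : parOk Q.C = true) (hK : 0 < Q.bA) (hP : Q.C.P ≤ Q.bA)
    (hW : 4 * Q.R + 2 * Q.C.K < Q.W) {U : Tri3} {L : List (ℝ × V3)} (hL : Pos L)
    (hU : Good Q Q.C.K U L) :
    ∀ l : List ℕ, hornOk Q U l = true → Good Q Q.R (horner Q U l) (hornL Q L l)
  | [], _ => good_nil Q Q.R
  | c :: l, h => by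
    simp only [hornOk, Bool.and_eq_true] at h
    have ih := good_horner hC hK hP hW hL hU l h.2
    have hm := hU.mul hC hK hP hL ih (R := Q.R) (by omega) (by omega) (by omega)
      (by unfold lineW; omega) h.1
    have := (good_ones Q hC (R := Q.R) (by omega) c).add hm
    convert this using 1
    · simp only [horner, hornStep, Nat.zero_add]
    · rfl

/-- The packed node law is below the exact one. -/
theorem good_node {Q : PPar} (hC : parOk Q.C = true) (hK : 0 < Q.bA) (hP : Q.C.P ≤ Q.bA)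
    (hW : 4 * Q.R + 2 * Q.C.K < Q.W) (hW2 : 4 * Q.R2 < Q.W) (hR : Q.R2 ≤ 2 * Q.R) {S E : ℕ}
    (h : nodeOk Q S E = true) : Good Q (2 * Q.R2) (node Q S E) (nodeL Q S E) := by
  simp only [nodeOk, Bool.and_eq_true] at h
  obtain ⟨⟨h1, h2⟩, h3⟩ := h
  have hT := good_horner hC hK hP hW (pos_childL hC S E) (good_child hC (by omega) S E) Q.coef h1
  have hp := pos_hornL Q (pos_childL hC S E) Q.coef
  have hT2 := hT.sqr hC hK hP hp (R := Q.R2) hR (by omega) (by omega) (by unfold lineW; omega) h2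
  exact hT2.sqr hC hK hP (pos_lmul hp hp) (R := 2 * Q.R2) le_rfl (by omega) (by omega)
    (by unfold lineW; omega) h3

end Vale.P154.PD
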