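import Vale.Agent.P154.Pois.DE.Exact

/-!
# Correct leaves of the tables with two channels

A correct leaf keeps less than what the channels `-a` and `-a / 2`, weighted by `1 / (D a ^ 2)` and
its complement, make of a vector of the node law.
-/

noncomputable section

namespace Vale.P154.PD

open Vale.P154.Lat Finset

/-- The facts checked by `pparOk`. -/
structure PFacts (Q : PPar) : Prop where
  par : parOk Q.C = true
  bA : 0 < Q.bA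
  an : 0 < Q.an
  half : 2 * Q.an ≤ Q.ad
  Dd : 0 < Q.Dd
  Dn : 0 < Q.Dn
  w : wA Q ≤ wD Q
  P : Q.C.P ≤ Q.bA
  R : Q.R2 ≤ 2 * Q.R
  K : Q.C.K ≤ Q.R2
  W2 : 4 * Q.R2 < Q.W
  W : 4 * Q.R + 2 * Q.C.K < Q.W
  dN : (4 * Q.R2 + 1) * Q.W ≤ 2 ^ Q.dN
  dE : 8 * Q.R2 + 1 ≤ 2 ^ Q.dE
  cor : pairOk Q 0 1 0 0 Q.ctg0 Q.ctg1 = true
  ce : Q.ce = 0 ∨
    (2 * Q.an = Q.ad ∧ Q.ctg0 = [] ∧ 2 * Q.ce * wD Q ≤ 2 ^ 40 * wA Q)

theorem pfacts {Q : PPar} (h : pparOk Q = true) : PFacts Q := by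
  simp only [pparOk, Bool.and_eq_true, Bool.or_eq_true, Nat.blt_eq, Nat.ble_eq, Nat.beq_eq,
    List.isEmpty_iff] at h
  obtain ⟨⟨⟨⟨⟨⟨⟨⟨⟨⟨⟨⟨⟨⟨⟨h1, h2⟩, h3⟩, h4⟩, h5⟩, h6⟩, h7⟩, h8⟩, h9⟩, h10⟩, h11⟩, h12⟩, h13⟩,
    h14⟩, h15⟩, h16⟩ := h
  refine ⟨h1, h2, h3, h4, h5, h6, h7, h8, h9, h10, h11, h12, h13, h14, h15, ?_⟩
  rcases h16 with h | ⟨⟨ha, hb⟩, hc⟩
  · exact Or.inl h
  · exact Or.inr ⟨ha, hb, hc⟩

/-- The eigenvalue of the first channel. -/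
def aR (Q : PPar) : ℝ := (Q.an : ℝ) / Q.ad

/-- The weight of the first channel. -/
def wR (Q : PPar) : ℝ := (wA Q : ℝ) / wD Q

theorem wD_pos {Q : PPar} (f : PFacts Q) : 0 < wD Q :=
  Nat.mul_pos f.Dn (pow_pos f.an 2)

theorem wR_mem {Q : PPar} (f : PFacts Q) : 0 ≤ wR Q ∧ wR Q ≤ 1 :=
  ⟨by unfold wR; positivity,
    (div_le_one (Nat.cast_pos.2 (wD_pos f))).2 (Nat.cast_le.2 f.w)⟩

theorem aR_mem {Q : PPar} (f : PFacts Q) : 0 < aR Q ∧ aR Q ≤ 1 / 2 := by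
  have h1 := f.an
  have h2 : 2 * (Q.an : ℝ) ≤ Q.ad := by exact_mod_cast f.half
  have h3 : (0 : ℝ) < Q.an := by exact_mod_cast h1
  have h4 : (0 : ℝ) < Q.ad := by linarith
  exact ⟨div_pos h3 h4, by rw [aR, div_le_iff₀ h4]; linarith⟩

/-- Both channels applied to a functional. -/
def Hab (Q : PPar) (G : V3 → ℝ) (v : V3) : ℝ :=
  wR Q * G (chan (-aR Q) v) + (1 - wR Q) * G (chan (-(aR Q / 2)) v)

/-- Targets below one channel. -/
theorem chan_targets {Q : PPar} (hC : parOk Q.C = true) {G : V3 → ℝ} (hG : Conc G) (hs : Sym G)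
    {c ad wn wd x y z : ℕ} {t : List (ℕ × ℕ × ℕ)} (h : chanOk Q c ad wn wd x y z t = true)
    (had : 2 * Q.an ≤ ad) (h0 : 0 < ad) (hwd : 0 < wd) {v : V3} (hv : ∀ i, 0 ≤ v i)
    (hx : (x : ℝ) = v 0 * ((Q.C.p * Q.C.q : ℕ) : ℝ) ^ (3 * c))
    (hy : (y : ℝ) = v 1 * ((Q.C.p * Q.C.q : ℕ) : ℝ) ^ (3 * c))
    (hz : (z : ℝ) = v 2 * ((Q.C.p * Q.C.q : ℕ) : ℝ) ^ (3 * c)) :
    dot (rowL t) (clsVal Q.C G) / 2 ^ 40 ≤
      (wn : ℝ) / wd * G (chan (-((Q.an : ℝ) / ad)) v) := by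
  simp only [chanOk, Bool.and_eq_true, Nat.ble_eq] at h
  obtain ⟨⟨⟨ht, i0⟩, i1⟩, i2⟩ := h
  have hQ : (0 : ℝ) < ((Q.C.p * Q.C.q : ℕ) : ℝ) := pq_pos hC
  have hsub : ∀ w, w ≤ x + y + z → 3 * Q.an * w ≤ (ad + Q.an) * (x + y + z) := fun w hw =>
    (Nat.mul_le_mul (show 3 * Q.an ≤ ad + Q.an by omega) hw)
  have j0 := (Nat.cast_le (α := ℝ)).2 i0
  have j1 := (Nat.cast_le (α := ℝ)).2 i1
  have j2 := (Nat.cast_le (α := ℝ)).2 i2
  simp only [Nat.cast_mul, Nat.cast_pow, Nat.cast_add, Nat.cast_ofNat,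
    Nat.cast_sub (hsub x (by omega)), Nat.cast_sub (hsub y (by omega)),
    Nat.cast_sub (hsub z (by omega)), hx, hy, hz] at j0 j1 j2
  set Z : ℝ := ((Q.C.p * Q.C.q : ℕ) : ℝ) with hZ
  have hZ' : (Q.C.p : ℝ) * Q.C.q = Z := by rw [hZ, Nat.cast_mul]
  simp only [hZ'] at j0 j1 j2
  have hadR : (0 : ℝ) < ad := Nat.cast_pos.2 h0
  have hwdR : (0 : ℝ) < wd := Nat.cast_pos.2 hwd
  set a : ℝ := (Q.an : ℝ) / ad with ha
  have ha2 : a ≤ 1 / 2 := by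
    rw [ha, div_le_iff₀ hadR]
    have : 2 * (Q.an : ℝ) ≤ ad := by exact_mod_cast had
    linarith
  have ha0 : 0 ≤ a := by positivity
  have hcn : ∀ i, 0 ≤ chan (-a) v i :=
    chan_nonneg (by norm_num) (by norm_num; linarith) (by linarith) hv
  have hP : ∀ i : Fin 3, (imgN Q.C i t : ℝ) ≤
      2 ^ 40 * ((wn : ℝ) / wd * chan (-a) v i) * Z ^ (3 * Q.C.K) := by
    intro i
    refine le_of_mul_le_mul_right ?_ (show (0 : ℝ) < Z ^ (3 * c) * 3 * ad * wd by positivity)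
    have j : (imgN Q.C i t : ℝ) * (Z ^ (3 * c) * 3 * ad * wd) ≤ 2 ^ 40 * wn * Z ^ (3 * Q.C.K) *
        (((ad : ℝ) + Q.an) * (v 0 + v 1 + v 2) - 3 * Q.an * v i) * Z ^ (3 * c) := by
      fin_cases i <;> simp only [Fin.zero_eta, Fin.mk_one, Fin.reduceFinMk, Fin.val_zero,
        Fin.val_one, Fin.val_two] <;> linarith
    refine j.trans_eq ?_
    rw [chan_three, ha]
    field_simp
    ring
  refine (targets_le hC hG hs ht (P := fun i => (wn : ℝ) / wd * chan (-a) v i) hP).trans ?_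
  exact (hG.smul _ _ (by positivity) hcn).le

/-- Targets below both channels. -/
theorem pair_targets {Q : PPar} (f : PFacts Q) {G : V3 → ℝ} (hG : Conc G) (hs : Sym G)
    {c x y z : ℕ} {t0 t1 : List (ℕ × ℕ × ℕ)} (h : pairOk Q c x y z t0 t1 = true) {v : V3}
    (hv : ∀ i, 0 ≤ v i) (hx : (x : ℝ) = v 0 * ((Q.C.p * Q.C.q : ℕ) : ℝ) ^ (3 * c))
    (hy : (y : ℝ) = v 1 * ((Q.C.p * Q.C.q : ℕ) : ℝ) ^ (3 * c))
    (hz : (z : ℝ) = v 2 * ((Q.C.p * Q.C.q : ℕ) : ℝ) ^ (3 * c)) :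
    dot (addL (rowL t0) (rowL t1)) (clsVal Q.C G) / 2 ^ 40 ≤ Hab Q G v := by
  simp only [pairOk, Bool.and_eq_true] at h
  have hf := f.half
  have han := f.an
  have hw := wD_pos f
  have h1 := chan_targets f.par hG hs h.1 hf (by omega) hw hv hx hy hz
  have h2 := chan_targets f.par hG hs h.2 (by omega) (by omega) hw hv hx hy hz
  rw [dot_addL, add_div]
  refine add_le_add h1 (h2.trans (le_of_eq ?_))
  unfold wR aR
  rw [Nat.cast_sub f.w, sub_div, div_self (Nat.cast_ne_zero.2 hw.ne'), Nat.cast_mul,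
    div_div, mul_comm ((Q.ad : ℕ) : ℝ)]
  norm_num

/-- What one child keeps from a node vector, the unit vectors removed. -/
def Kf (Q : PPar) (G : V3 → ℝ) (v : V3) : ℝ :=
  Hab Q G v - Hab Q G (e1 0) * (v 0 + v 1 + v 2)

theorem conc_hab {Q : PPar} (f : PFacts Q) {G : V3 → ℝ} (hG : Conc G) : Conc (Hab Q G) := by
  obtain ⟨ha, ha2⟩ := aR_mem f
  obtain ⟨w0, w1⟩ := wR_mem f
  have ca := Conc.chanv hG (lam := -aR Q) (by linarith) (by linarith)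
  have cb := Conc.chanv hG (lam := -(aR Q / 2)) (by linarith) (by linarith)
  refine ⟨fun v hv => ?_, fun r v hr hv => ?_, fun u v hu hv => ?_⟩
  · exact add_nonneg (mul_nonneg w0 (ca.nn v hv)) (mul_nonneg (by linarith) (cb.nn v hv))
  · unfold Hab
    rw [ca.smul r v hr hv, cb.smul r v hr hv]
    ring
  · unfold Hab
    have := mul_le_mul_of_nonneg_left (ca.add u v hu hv) w0
    have := mul_le_mul_of_nonneg_left (cb.add u v hu hv) (sub_nonneg.2 w1)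
    linarith

theorem sym_hab {Q : PPar} {G : V3 → ℝ} (hs : Sym G) : Sym (Hab Q G) := by
  intro π v
  have e : ∀ lam, chan lam (fun i => v (π i)) = fun i => chan lam v (π i) := fun lam =>
    funext fun i => chan_comp_perm lam π v i
  simp only [Hab, e, hs π]

theorem hab_e1 {Q : PPar} {G : V3 → ℝ} (hs : Sym G) (i : Fin 3) :
    Hab Q G (e1 i) = Hab Q G (e1 0) := by
  rw [← sym_hab (Q := Q) hs (Equiv.swap 0 i) (e1 i)]
  congr 1
  funext j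
  fin_cases i <;> fin_cases j <;> simp [e1, Equiv.swap_apply_def]

theorem kf_eq_rest {Q : PPar} {G : V3 → ℝ} (hs : Sym G) : Kf Q G = rest (Hab Q G) := by
  funext v
  simp only [Kf, rest, hab_e1 hs 1, hab_e1 hs 2]
  ring

theorem conc_kf {Q : PPar} (f : PFacts Q) {G : V3 → ℝ} (hG : Conc G) (hs : Sym G) :
    Conc (Kf Q G) := by
  rw [kf_eq_rest hs]
  exact (conc_hab f hG).rest

theorem sym_kf {Q : PPar} {G : V3 → ℝ} (hs : Sym G) : Sym (Kf Q G) := by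
  intro π v
  have := Equiv.sum_comp π v
  simp only [Fin.sum_univ_three] at this
  simp only [Kf, sym_hab hs π v, this]

/-- The row of a node leaf. -/
def histP (a : PLeaf) : List ℕ := (addL (rowL a.t0) (rowL a.t1)).map (a.mult * ·)

/-- The row of an edge leaf. -/
def histQ (a : PEdge) : List ℕ := (addL (rowL a.t0) (rowL a.t1)).map (3 * ·)

theorem pnode_leaf {Q : PPar} (f : PFacts Q) {G : V3 → ℝ} (hG : Conc G) (hs : Sym G)
    (a : PLeaf) (n : ℕ) (h : pleafOk Q a n = true) :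
    (1 / 2 ^ 40) * dot (histP a) (clsVal Q.C G) +
        (-(Hab Q G (e1 0)) / 2 ^ 40) * (a.mu : ℝ) ≤
      sect (pv Q (2 * Q.R2) n 0) (pv Q (2 * Q.R2) n 1) (pv Q (2 * Q.R2) n 2) *
        Kf Q G (pv Q (2 * Q.R2) n) := by
  simp only [pleafOk, Bool.and_eq_true, Nat.beq_eq, Nat.ble_eq] at h
  obtain ⟨⟨⟨⟨⟨⟨hn, hA⟩, hB⟩, hm⟩, hp⟩, -⟩, hmu⟩ := h
  have hW := f.W2
  have e : pv Q (2 * Q.R2) n = vec (unit Q.C) (2 * Q.R2) a.A a.B := by
    subst hn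
    unfold pv
    rw [Nat.mul_comm a.A, Nat.mul_add_div (by omega), Nat.mul_add_mod,
      Nat.div_eq_of_lt (show a.B < Q.W by omega), Nat.mod_eq_of_lt (by omega), add_zero]
  rw [e]
  set c := 2 * Q.R2 with hc
  set v := vec (unit Q.C) c a.A a.B with hv
  obtain ⟨ex, ey, ez⟩ := vec_powN (unit_ok f.par) (m := c) (A := a.A) (B := a.B)
    (by simp only [unit]; omega) (by simp only [unit]; omega)
  have eu1 : (unit Q.C).K = 1 := rfl
  have epn : ∀ R e, powN (unit Q.C) R e = powN Q.C R e := fun _ _ => rfl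
  simp only [eu1, mul_one, epn, show (unit Q.C).p = Q.C.p from rfl,
    show (unit Q.C).q = Q.C.q from rfl, ← hv] at ex ey ez
  have hv0 : ∀ i, 0 ≤ v i := vec_nonneg (unit_ok f.par) _ _ _
  have hT := pair_targets f hG hs hp hv0 ex ey ez
  have hQ : (0 : ℝ) < ((Q.C.p * Q.C.q : ℕ) : ℝ) := pq_pos f.par
  have hsect : (a.mult : ℝ) ≤ sect (v 0) (v 1) (v 2) := by
    rw [← sectN_real (pow_pos hQ (3 * c)) ex ey ez]
    exact_mod_cast hm
  refine le_trans ?_ (mul_le_mul_of_nonneg_right hsect ((conc_kf f hG hs).nn v hv0))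
  have hmu' := (Nat.cast_le (α := ℝ)).2 hmu
  simp only [Nat.cast_mul, Nat.cast_pow, Nat.cast_add, Nat.cast_ofNat, ex, ey, ez] at hmu'
  have hmu2 : (a.mult : ℝ) * (v 0 + v 1 + v 2) * 2 ^ 40 ≤ a.mu := by
    refine le_of_mul_le_mul_right ?_ (pow_pos hQ (3 * c))
    push_cast
    linarith
  have he := mul_le_mul_of_nonneg_left hmu2 ((conc_hab f hG).nn _ (e1_nonneg 0))
  have hT2 := mul_le_mul_of_nonneg_left hT (Nat.cast_nonneg (α := ℝ) a.mult)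
  rw [histP, dot_smul, Kf]
  ring_nf at hT2 he ⊢
  linarith

theorem pedge_leaf {Q : PPar} (f : PFacts Q) {G : V3 → ℝ} (hG : Conc G) (hs : Sym G)
    (a : PEdge) (n : ℕ) (h : pedgeOk Q a n = true) :
    (1 / 2 ^ 40) * dot (histQ a) (clsVal Q.C G) +
        (-(Hab Q G (e1 0)) / 2 ^ 40) * (a.mu : ℝ) ≤
      3 * Kf Q G (ev Q (2 * Q.R2) n) := by
  simp only [pedgeOk, Bool.and_eq_true, Nat.beq_eq, Nat.ble_eq] at h
  obtain ⟨⟨⟨⟨hn, hk⟩, hp⟩, -⟩, hmu⟩ := h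
  subst hn
  set c := 2 * Q.R2 with hc
  set v := ev Q c a.k with hv
  have hQ : (0 : ℝ) < ((Q.C.p * Q.C.q : ℕ) : ℝ) := pq_pos f.par
  have ex : (powN Q.C (12 * c) (3 * a.k) : ℝ) =
      v 0 * ((Q.C.p * Q.C.q : ℕ) : ℝ) ^ (3 * (2 * c)) := by
    rw [show powN Q.C (12 * c) (3 * a.k) = powN (unit Q.C) (2 * (6 * c)) (3 * a.k) by
        rw [show 2 * (6 * c) = 12 * c by ring]; rfl,
      powN_real (unit_ok f.par) _ _ (by omega)]
    simp only [hv, ev, vP, Matrix.cons_val_zero, unit]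
    push_cast
    ring_nf
  have v1 : v 1 = 1 := by simp [hv, ev, vP]
  have v2 : v 2 = 0 := by simp [hv, ev, vP]
  have ey : (((Q.C.p * Q.C.q) ^ (6 * c) : ℕ) : ℝ) =
      v 1 * ((Q.C.p * Q.C.q : ℕ) : ℝ) ^ (3 * (2 * c)) := by
    rw [v1, Nat.cast_pow]; ring_nf
  have ez : ((0 : ℕ) : ℝ) = v 2 * ((Q.C.p * Q.C.q : ℕ) : ℝ) ^ (3 * (2 * c)) := by
    rw [v2]; simp
  have hv0 : ∀ i, 0 ≤ v i := ev_nonneg f.par _ _
  have hT := pair_targets f hG hs hp hv0 ex ey ez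
  have hmu' := (Nat.cast_le (α := ℝ)).2 hmu
  rw [Nat.cast_mul, Nat.cast_mul, Nat.cast_mul, Nat.cast_add, ex, ey, Nat.cast_mul] at hmu'
  have hmu2 : 3 * (v 0 + v 1 + v 2) * 2 ^ 40 ≤ (a.mu : ℝ) := by
    refine le_of_mul_le_mul_right ?_ (pow_pos hQ (3 * (2 * c)))
    rw [v1, v2] at *
    push_cast at hmu' ⊢
    linarith
  have he := mul_le_mul_of_nonneg_left hmu2 ((conc_hab f hG).nn _ (e1_nonneg 0))
  rw [histQ, dot_smul, Kf]
  push_cast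
  ring_nf at hT he ⊢
  linarith

end Vale.P154.PD
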