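import Vale.Agent.P154.Lattice.Mask
import Vale.Agent.P154.Pois.Slice
import Vale.Agent.P154.Lattice.Step

/-!
# The packed node law is below the exact one

The exact node law is a list built by Horner's rule and two squarings; its part without excluded
colour and the part excluding the last colour dominate the packed, cropped numbers.
-/

noncomputable section

namespace Vale.P154.PD

open Vale.P154.Lat Finset

/-- The lattice with unit spacing, for centred positions. -/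
def unit (C : Par) : Par :=
  { C with K := 1, classes := [], dA := 5, dP := 3 }

theorem unit_ok {C : Par} (hC : parOk C = true) : parOk (unit C) = true := by
  simp only [parOk, Bool.and_eq_true, Nat.blt_eq, Nat.ble_eq, List.all_eq_true] at hC ⊢
  obtain ⟨⟨⟨h, -⟩, -⟩, -⟩ := hC
  exact ⟨⟨⟨h, fun c hc => absurd hc (List.not_mem_nil)⟩, by norm_num [unit]⟩, by norm_num [unit]⟩

/-- The vector at a position, centre `(c, c)`. -/
def pv (Q : PPar) (c i : ℕ) : V3 := vec (unit Q.C) c (i / Q.W) (i % Q.W)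

/-- The vector at an edge position, centre `2 c`. -/
def ev (Q : PPar) (c k : ℕ) : V3 := vP (unit Q.C) c k

theorem vec_unit (C : Par) (A B : ℕ) : vec (unit C) C.K A B = vec C 1 A B := by
  simp [vec, unit, sig]

theorem vP_unit (C : Par) (k : ℕ) : vP (unit C) C.K k = vP C 1 k := by
  simp [vP, unit, sig]

/-- Digits below the weights of `l`, inside a window around the centre `(c, c)`. -/
structure LowA (Q : PPar) (c : ℕ) (L : List ℕ) (s : ℕ) (l : List (ℝ × V3)) : Prop where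
  win : ∀ F : ℕ → ℝ,
    dot L F = dot L fun i => if i % Q.W ≤ 2 * c ∧ i / Q.W ≤ 2 * c then F i else 0
  le : ∀ H : V3 → ℝ, (∀ v, (∀ i, 0 ≤ v i) → 0 ≤ H v) →
    dot L (fun i => H (pv Q c i)) / 2 ^ Q.C.P ≤ lval l H
  sum : L.sum ≤ s

/-- Digits below the weights of `l` on the edge, centre `2 c`. -/
structure LowE (Q : PPar) (c : ℕ) (L : List ℕ) (s : ℕ) (l : List (ℝ × V3)) : Prop where
  win : ∀ F : ℕ → ℝ, dot L F = dot L fun i => if i ≤ 4 * c then F i else 0
  le : ∀ H : V3 → ℝ, (∀ v, (∀ i, 0 ≤ v i) → 0 ≤ H v) →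
    dot L (fun i => H (ev Q c i)) / 2 ^ Q.C.P ≤ lval l H
  sum : L.sum ≤ s

theorem dot_nonneg : ∀ (L : List ℕ) (F : ℕ → ℝ), (∀ i, 0 ≤ F i) → 0 ≤ dot L F
  | [], F, _ => by simp [dot]
  | a :: L, F, h => add_nonneg (mul_nonneg (Nat.cast_nonneg a) (h 0)) (dot_nonneg L _ fun i => h _)

theorem dot_add : ∀ (L : List ℕ) (F G : ℕ → ℝ), dot L (fun i => F i + G i) = dot L F + dot L G
  | [], F, G => by simp [dot]
  | a :: L, F, G => by simp only [dot, dot_add L]; ring

theorem dot_drop : ∀ (L : List ℕ) (q : ℕ) (F : ℕ → ℝ),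
    dot (L.drop q) F = dot L fun i => if q ≤ i then F (i - q) else 0
  | L, 0, F => by simp
  | [], q + 1, F => by simp [dot]
  | a :: L, q + 1, F => by
    simp only [List.drop_succ_cons, dot_drop L q F, dot]
    simp [Nat.add_le_add_iff_right]

theorem sum_drop_le (L : List ℕ) (q : ℕ) : (L.drop q).sum ≤ L.sum := by
  conv_rhs => rw [← List.take_append_drop q L, List.sum_append]
  exact Nat.le_add_left _ _

theorem pv_mul {Q : PPar} (hC : parOk Q.C = true) {c c' i j : ℕ}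
    (h : i % Q.W + j % Q.W < Q.W) :
    (fun a => pv Q c i a * pv Q c' j a) = pv Q (c + c') (i + j) := by
  unfold pv
  rw [vec_mul (unit_ok hC), Nat.add_mod_of_add_mod_lt (by omega), Nat.add_div (by omega),
    if_neg (by omega), add_zero]

theorem ev_mul {Q : PPar} (hC : parOk Q.C = true) (c c' i j : ℕ) :
    (fun a => ev Q c i a * ev Q c' j a) = ev Q (c + c') (i + j) :=
  vP_mul (unit_ok hC) c c' i j

theorem pv_nonneg {Q : PPar} (hC : parOk Q.C = true) (c i : ℕ) (a : Fin 3) : 0 ≤ pv Q c i a :=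
  vec_nonneg (unit_ok hC) _ _ _ a

theorem ev_nonneg {Q : PPar} (hC : parOk Q.C = true) (c i : ℕ) (a : Fin 3) : 0 ≤ ev Q c i a :=
  vP_nonneg (unit_ok hC) _ _ a

/-- The convolution is below the product. -/
theorem LowA.conv {Q : PPar} (hC : parOk Q.C = true) {c c' s s' : ℕ} {L L' : List ℕ}
    {l l' : List (ℝ × V3)} (hl : Pos l) (h : LowA Q c L s l) (h' : LowA Q c' L' s' l')
    (hw : 2 * c + 2 * c' < Q.W) (H : V3 → ℝ) (hH : ∀ v, (∀ i, 0 ≤ v i) → 0 ≤ H v) :
    dot (convL L L') (fun i => H (pv Q (c + c') i)) ≤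
      2 ^ Q.C.P * 2 ^ Q.C.P * lval (lmul l l') H := by
  have hP : (0 : ℝ) < 2 ^ Q.C.P := by positivity
  have e : dot (convL L L') (fun i => H (pv Q (c + c') i)) =
      dot L fun i => dot L' fun j => H fun a => pv Q c i a * pv Q c' j a := by
    rw [dot_convL, h.win]
    conv_rhs => rw [h.win]
    congr 1
    funext i
    split_ifs with hi
    · rw [h'.win]
      conv_rhs => rw [h'.win]
      congr 1
      funext j
      split_ifs with hj
      · rw [pv_mul hC (by omega)]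
      · rfl
    · rfl
  rw [e, lval_lmul, two]
  set Φ : V3 → ℝ := fun a => dot L' fun j => H fun b => a b * pv Q c' j b with hΦ
  have hΦ0 : ∀ v, (∀ i, 0 ≤ v i) → 0 ≤ Φ v := fun v hv =>
    dot_nonneg _ _ fun j => hH _ fun b => mul_nonneg (hv b) (pv_nonneg hC c' j b)
  have h1 := h.le Φ hΦ0
  rw [div_le_iff₀ hP] at h1
  refine h1.trans ?_
  rw [mul_comm, mul_assoc]
  refine mul_le_mul_of_nonneg_left ?_ hP.le
  rw [← lval_const_mul]
  refine (finitary_lval hl).mono _ _ fun a ha => ?_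
  have h2 := h'.le (fun b => H fun i => a i * b i) fun v hv => hH _ fun i => mul_nonneg (ha i) (hv i)
  rw [div_le_iff₀ hP, mul_comm] at h2
  exact h2

/-- The convolution is below the product, on the edge. -/
theorem LowE.conv {Q : PPar} (hC : parOk Q.C = true) {c c' s s' : ℕ} {L L' : List ℕ}
    {l l' : List (ℝ × V3)} (hl : Pos l) (h : LowE Q c L s l) (h' : LowE Q c' L' s' l')
    (H : V3 → ℝ) (hH : ∀ v, (∀ i, 0 ≤ v i) → 0 ≤ H v) :
    dot (convL L L') (fun i => H (ev Q (c + c') i)) ≤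
      2 ^ Q.C.P * 2 ^ Q.C.P * lval (lmul l l') H := by
  have hP : (0 : ℝ) < 2 ^ Q.C.P := by positivity
  rw [dot_convL, lval_lmul, two]
  simp only [← ev_mul hC c c']
  have h1 := h.le (fun a => dot L' fun j => H fun b => a b * ev Q c' j b) fun v hv =>
    dot_nonneg _ _ fun j => hH _ fun b => mul_nonneg (hv b) (ev_nonneg hC c' j b)
  rw [div_le_iff₀ hP] at h1
  refine h1.trans ?_
  rw [mul_comm, mul_assoc]
  refine mul_le_mul_of_nonneg_left ?_ hP.le
  rw [← lval_const_mul]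
  refine (finitary_lval hl).mono _ _ fun a ha => ?_
  have h2 := h'.le (fun b => H fun i => a i * b i) fun v hv => hH _ fun i => mul_nonneg (ha i) (hv i)
  rw [div_le_iff₀ hP, mul_comm] at h2
  exact h2

/-- Cropping a product to a square and moving it to the origin. -/
theorem lowA_crop {Q : PPar} (hK : 0 < Q.bA) (hP : Q.C.P ≤ Q.bA) {c R s : ℕ} {p : List ℕ} {l : List (ℝ × V3)}
    (hp : ∀ a ∈ p, a < 2 ^ Q.bA) (hR : R ≤ c) (hw : c + R < Q.W) (hs : p.sum ≤ s)
    (hle : ∀ H : V3 → ℝ, (∀ v, (∀ i, 0 ≤ v i) → 0 ≤ H v) →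
      dot p (fun i => H (pv Q c i)) ≤ 2 ^ Q.C.P * 2 ^ Q.C.P * lval l H)
    (hC : parOk Q.C = true) :
    ∃ L, pack Q.bA L = crop2 Q c R (pack Q.bA p) ∧ LowA Q R L (s / 2 ^ Q.C.P) l ∧
      (∀ a ∈ L, a < 2 ^ Q.bA) := by
  obtain ⟨L, eL, dL, -, sL, supp, leL⟩ := crop_rect (K := Q.bA) (P := Q.C.P) (W := Q.W)
    (lo := c - R) (hi := c + R) (rlo := c - R) (rhi := c + R) hK hP (by omega) hw hp
  have key : ∀ i, (c - R ≤ i % Q.W ∧ i % Q.W ≤ c + R ∧ c - R ≤ i / Q.W ∧ i / Q.W ≤ c + R) →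
      (c - R) * (Q.W + 1) ≤ i ∧ ((i - (c - R) * (Q.W + 1)) % Q.W ≤ 2 * R ∧
        (i - (c - R) * (Q.W + 1)) / Q.W ≤ 2 * R) ∧
        pv Q R (i - (c - R) * (Q.W + 1)) = pv Q c i := by
    rintro i ⟨h1, h2, h3, h4⟩
    have e := Nat.div_add_mod i Q.W
    have hb := Nat.mod_lt i (show Q.W > 0 by omega)
    generalize hA : i / Q.W = A at *
    generalize hB : i % Q.W = B at *
    have hle1 : (c - R) * (Q.W + 1) ≤ i := by
      have := Nat.mul_le_mul_left Q.W h3
      rw [← e, Nat.mul_succ, mul_comm (c - R)]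
      omega
    have e2 : i - (c - R) * (Q.W + 1) = Q.W * (A - (c - R)) + (B - (c - R)) := by
      obtain ⟨A', hA'⟩ : ∃ A', A = c - R + A' := ⟨A - (c - R), by omega⟩
      rw [hA', Nat.mul_add] at e
      rw [hA', Nat.add_sub_cancel_left, Nat.mul_succ, mul_comm (c - R)]
      omega
    refine ⟨hle1, ?_, ?_⟩
    · rw [e2, Nat.mul_add_mod, Nat.mod_eq_of_lt (by omega), Nat.mul_add_div (by omega),
        Nat.div_eq_of_lt (show B - (c - R) < Q.W by omega)]
      omega
    · rw [e2]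
      unfold pv
      rw [hA, hB]
      rw [Nat.mul_add_mod, Nat.mod_eq_of_lt (by omega), Nat.mul_add_div (by omega),
        Nat.div_eq_of_lt (show B - (c - R) < Q.W by omega), add_zero]
      simp only [vec, unit]
      funext a
      fin_cases a <;>
        simp [Nat.cast_sub h3, Nat.cast_sub h1, Nat.cast_sub hR] <;> congr 1 <;> ring
  have hdig : ∀ a ∈ L.drop ((c - R) * (Q.W + 1)), a < 2 ^ Q.bA := fun a ha =>
    dL a (List.mem_of_mem_drop ha)
  refine ⟨L.drop ((c - R) * (Q.W + 1)), ?_, ⟨fun F => ?_, fun H hH => ?_, ?_⟩, hdig⟩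
  · rw [crop2, ← eL, Nat.shiftRight_eq', Nat.shiftRight_eq_div_pow]
    exact ((pack_split Q.bA _ L dL).2).symm
  · rw [dot_drop, dot_drop]
    refine dot_congr _ _ _ fun i hi => ?_
    obtain ⟨k1, k2, -⟩ := key i (supp i hi)
    simp only [k1, if_true, k2, and_self]
  · have h0 : ∀ i, 0 ≤ H (pv Q c i) := fun i => hH _ (pv_nonneg hC c i)
    rw [dot_drop, dot_congr L _ (fun i => H (pv Q c i)) fun i hi => by
      obtain ⟨k1, -, k3⟩ := key i (supp i hi)
      simp only [k1, if_true, k3]]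
    have h2 := (leL _ h0).trans (dot_mono p _ (fun i => H (pv Q c i)) fun i => by
      split_ifs <;> first | exact le_rfl | exact h0 i)
    rw [div_le_iff₀ (by positivity)]
    refine le_of_mul_le_mul_left ?_ (show (0 : ℝ) < 2 ^ Q.C.P by positivity)
    linarith [hle H hH]
  · rw [Nat.le_div_iff_mul_le (Nat.two_pow_pos _)]
    exact le_trans (Nat.mul_le_mul_right _ (sum_drop_le L _)) (sL.trans hs)

/-- Cropping a product on the edge. -/
theorem lowE_crop {Q : PPar} (hK : 0 < Q.bA) (hP : Q.C.P ≤ Q.bA) {c R s : ℕ} {p : List ℕ} {l : List (ℝ × V3)}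
    (hp : ∀ a ∈ p, a < 2 ^ Q.bA) (hR : R ≤ c) (hw : 2 * c + 2 * R < lineW Q) (hs : p.sum ≤ s)
    (hle : ∀ H : V3 → ℝ, (∀ v, (∀ i, 0 ≤ v i) → 0 ≤ H v) →
      dot p (fun i => H (ev Q c i)) ≤ 2 ^ Q.C.P * 2 ^ Q.C.P * lval l H)
    (hC : parOk Q.C = true) :
    ∃ L, pack Q.bA L = crop1 Q (2 * c) (2 * R) (pack Q.bA p) ∧ LowE Q R L (s / 2 ^ Q.C.P) l ∧
      (∀ a ∈ L, a < 2 ^ Q.bA) := by
  obtain ⟨L, eL, dL, -, sL, supp, leL⟩ := crop_rect (K := Q.bA) (P := Q.C.P) (W := lineW Q)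
    (lo := 2 * c - 2 * R) (hi := 2 * c + 2 * R) (rlo := 0) (rhi := 0) hK hP (by omega) hw hp
  have key : ∀ i, (2 * c - 2 * R ≤ i % lineW Q ∧ i % lineW Q ≤ 2 * c + 2 * R ∧ 0 ≤ i / lineW Q ∧
      i / lineW Q ≤ 0) →
      2 * c - 2 * R ≤ i ∧ ev Q R (i - (2 * c - 2 * R)) = ev Q c i := by
    rintro i ⟨h1, -, -, h4⟩
    have h5 : i / lineW Q = 0 := Nat.le_zero.1 h4
    have hlt : i < lineW Q := (Nat.div_eq_zero_iff.1 h5).resolve_left fun h => by
      rw [h] at hw; omega
    rw [Nat.mod_eq_of_lt hlt] at h1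
    refine ⟨h1, ?_⟩
    simp only [ev, vP, unit]
    funext a
    fin_cases a <;> simp
    push_cast [Nat.cast_sub h1, Nat.cast_sub (show 2 * R ≤ 2 * c by omega)]
    congr 1
    ring
  refine ⟨L.drop (2 * c - 2 * R), ?_, ⟨fun F => ?_, fun H hH => ?_, ?_⟩, fun a ha =>
    dL a (List.mem_of_mem_drop ha)⟩
  · rw [crop1, ← eL, Nat.shiftRight_eq', Nat.shiftRight_eq_div_pow]
    exact ((pack_split Q.bA _ L dL).2).symm
  · rw [dot_drop, dot_drop]
    refine dot_congr _ _ _ fun i hi => ?_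
    obtain ⟨-, h2, -, h4⟩ := supp i hi
    have hlt : i < lineW Q := (Nat.div_eq_zero_iff.1 (Nat.le_zero.1 h4)).resolve_left fun h => by
      rw [h] at hw; omega
    rw [Nat.mod_eq_of_lt hlt] at h2
    simp only [(key i (supp i hi)).1, if_true]
    rw [if_pos (by omega)]
  · have h0 : ∀ i, 0 ≤ H (ev Q c i) := fun i => hH _ (ev_nonneg hC c i)
    rw [dot_drop, dot_congr L _ (fun i => H (ev Q c i)) fun i hi => by
      obtain ⟨k1, k3⟩ := key i (supp i hi)
      simp only [k1, if_true, k3]]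
    have h2 := (leL _ h0).trans (dot_mono p _ (fun i => H (ev Q c i)) fun i => by
      split_ifs <;> first | exact le_rfl | exact h0 i)
    rw [div_le_iff₀ (by positivity)]
    refine le_of_mul_le_mul_left ?_ (show (0 : ℝ) < 2 ^ Q.C.P by positivity)
    linarith [hle H hH]
  · rw [Nat.le_div_iff_mul_le (Nat.two_pow_pos _)]
    exact le_trans (Nat.mul_le_mul_right _ (sum_drop_le L _)) (sL.trans hs)

end Vale.P154.PD
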