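import Vale.Agent.P154.Pois.DE.Step

/-!
# The exact node law is below a Poisson mixture
-/

noncomputable section

namespace Vale.P154.PD

open Vale.P154.Lat Finset

theorem fct_eq : ∀ n, fct n = n.factorial
  | 0 => rfl
  | n + 1 => by rw [fct, fct_eq n, Nat.factorial_succ]

theorem eSum_real (u h : ℕ) (hh : 0 < h) : ∀ n, (eSum u h n : ℝ) =
    (h : ℝ) ^ n * n.factorial * ∑ m ∈ Finset.range n, ((u : ℝ) / h) ^ m / m.factorial
  | 0 => by simp [eSum]
  | n + 1 => by
    have h0 : (h : ℝ) ≠ 0 := Nat.cast_ne_zero.2 hh.ne'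
    have h1 := Nat.cast_ne_zero (R := ℝ).2 n.factorial_ne_zero
    rw [eSum, Finset.sum_range_succ, Nat.factorial_succ, Nat.cast_add, Nat.cast_mul, Nat.cast_mul,
      Nat.cast_mul, Nat.cast_mul, Nat.cast_pow, eSum_real u h hh n, div_pow, Nat.cast_mul]
    field_simp
    ring

theorem exp_half_le {u h : ℕ} (hh : 0 < h) (hu : u ≤ h) :
    Real.exp ((u : ℝ) / h) ≤ (expUp u h : ℝ) / expDen h := by
  have h0 : (0 : ℝ) < h := Nat.cast_pos.2 hh
  refine (Real.exp_bound' (by positivity) ((div_le_one h0).2 (Nat.cast_le.2 hu))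
    (n := 20) (by norm_num)).trans (le_of_eq ?_)
  simp only [expUp, expDen, fct_eq, Nat.cast_add, Nat.cast_mul, Nat.cast_pow, eSum_real u h hh]
  generalize (∑ m ∈ Finset.range 20, ((u : ℝ) / h) ^ m / (m.factorial : ℝ)) = s
  have := Nat.cast_ne_zero (R := ℝ).2 (Nat.factorial_ne_zero 20)
  generalize ((Nat.factorial 20 : ℕ) : ℝ) = F at *
  push_cast
  field_simp
  ring

theorem lval_hornL {Q : PPar} {U : List (ℝ × V3)} (hU : Pos U) : ∀ (l : List ℕ) (G : V3 → ℝ),
    lval (hornL Q U l) G =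
      ∑ m ∈ Finset.range l.length, (l.getD m 0 : ℝ) / 2 ^ Q.C.P * lval (lpow U m) G
  | [], G => by simp [hornL, lval]
  | c :: l, G => by
    rw [hornL, lval_append, lval_lmul, two]
    simp only [lval_hornL hU l]
    rw [(finitary_lval hU).sum]
    simp only [lval_const_mul, ← lval_lpow_succ]
    rw [List.length_cons, Finset.sum_range_succ']
    simp [onesL, lval, lpow, add_comm]

theorem coefs_spec {Q : PPar} : ∀ (l : List ℕ) (m : ℕ), coefsOk Q m l = true →
    ∀ j, j < l.length → l.getD j 0 * fct (m + j) * (4 * Q.Dd) ^ (m + j) *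
      expUp Q.Dn (8 * Q.Dd) ^ 2 ≤ 2 ^ Q.C.P * expDen (8 * Q.Dd) ^ 2 * Q.Dn ^ (m + j)
  | [], _, _, j, hj => by simp at hj
  | c :: l, m, h, j, hj => by
    simp only [coefsOk, Bool.and_eq_true, Nat.ble_eq] at h
    cases j with
    | zero => simpa using h.1
    | succ j =>
      simpa [add_assoc, add_comm 1] using coefs_spec l (m + 1) h.2 j (by simpa using hj)

/-- The mean degree of the padded tree. -/
def DR (Q : PPar) : ℝ := (Q.Dn : ℝ) / Q.Dd

theorem coef_le {Q : PPar} (hDd : 0 < Q.Dd) (h : pcoefOk Q = true) {m : ℕ}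
    (hm : m < Q.coef.length) :
    (Q.coef.getD m 0 : ℝ) / 2 ^ Q.C.P ≤ poisWeight (DR Q / 4) m := by
  simp only [pcoefOk, Bool.and_eq_true, Nat.ble_eq] at h
  have hs := coefs_spec _ _ h.2 m hm
  rw [Nat.zero_add, fct_eq] at hs
  have hs' := (Nat.cast_le (α := ℝ)).2 hs
  push_cast at hs'
  have hh : 0 < 8 * Q.Dd := by omega
  have hd : (0 : ℝ) < Q.Dd := Nat.cast_pos.2 hDd
  have he := exp_half_le hh h.1
  set x := Real.exp ((Q.Dn : ℝ) / ((8 * Q.Dd : ℕ) : ℝ)) with hx
  have hx0 : 0 < x := Real.exp_pos _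
  have hexp : Real.exp (-(DR Q / 4)) = 1 / x ^ 2 := by
    rw [hx, Real.exp_neg, one_div, ← Real.exp_nat_mul]
    congr 2
    rw [DR]; push_cast; field_simp; ring
  have hden : (0 : ℝ) < expDen (8 * Q.Dd) :=
    Nat.cast_pos.2 (by simp only [expDen, fct_eq]; positivity)
  have hup := lt_of_lt_of_le hx0 he
  have hup0 : (0 : ℝ) < expUp Q.Dn (8 * Q.Dd) := by
    rcases lt_or_ge 0 (expUp Q.Dn (8 * Q.Dd) : ℝ) with h | h
    · exact h
    · linarith [div_nonpos_of_nonpos_of_nonneg h hden.le]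
  rw [poisWeight, hexp, DR, div_div, div_pow]
  refine le_trans ?_ (div_le_div_of_nonneg_right (mul_le_mul_of_nonneg_right
    (one_div_le_one_div_of_le (pow_pos hx0 2) (pow_le_pow_left₀ hx0.le he 2)) (by positivity))
    (by positivity))
  rw [div_pow, one_div_div, mul_comm (Q.Dd : ℝ) 4, div_mul_div_comm, div_div,
    div_le_div_iff₀ (by positivity) (by positivity)]
  linarith

/-- The node law with mean degree `D`. -/
theorem mixes_nodeL {Q : PPar} (hC : parOk Q.C = true) (hDd : 0 < Q.Dd) (h : pcoefOk Q = true)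
    (S E : ℕ) : Mixes (childL Q S E) (DR Q) (nodeL Q S E) := by
  have hU := pos_childL hC S E
  have hD : 0 ≤ DR Q / 4 := by unfold DR; positivity
  set T := hornL Q (childL Q S E) Q.coef with hT
  have hT1 : Mixes (childL Q S E) (DR Q / 4) T :=
    (Mixes.of_series hU hD (c := fun m => (Q.coef.getD m 0 : ℝ) / 2 ^ Q.C.P) Q.coef.length
      fun m hm => coef_le hDd h hm).mono fun G _ => le_of_eq (by
        rw [lval_hornL hU, lval_series])
  have pT := pos_hornL Q hU Q.coef
  have hT2 := hT1.mul hD hD hU pT hT1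
  have hT4 := hT2.mul (add_nonneg hD hD) (add_nonneg hD hD) hU (pos_lmul pT pT) hT2
  rwa [show DR Q / 4 + DR Q / 4 + (DR Q / 4 + DR Q / 4) = DR Q by ring] at hT4

end Vale.P154.PD
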