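import Vale.Agent.P154.Pois.DE.Leaf

/-!
# Soundness of one checked generation with Poisson offspring

The new packed child law is below both channels applied to the node law built from the old one.
-/

noncomputable section

namespace Vale.P154.PD

open Vale.P154.Lat Finset

/-- Digits outside a window vanish, so the list may be shortened. -/
theorem trim {K : ℕ} {L : List ℕ} {p : ℕ → Prop} [DecidablePred p]
    (h : ∀ F : ℕ → ℝ, dot L F = dot L fun i => if p i then F i else 0) {m : ℕ}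
    (hm : ∀ i, p i → i < m) :
    pack K (L.take m) = pack K L ∧ ∀ F : ℕ → ℝ, dot (L.take m) F = dot L F := by
  have hd : ∀ F : ℕ → ℝ, dot (L.drop m) F = 0 := by
    intro F
    rw [dot_drop, h]
    have : (fun i => if p i then (if m ≤ i then F (i - m) else 0) else 0) =
        fun _ => (0 : ℝ) * 1 := by
      funext i
      by_cases hi : p i
      · simp [hi, not_le.2 (hm i hi)]
      · simp [hi]
    rw [this, dot_const_mul, zero_mul]
  have hz : ∀ a ∈ L.drop m, a = 0 := fun a ha => by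
    have h1 := hd fun _ => 1
    rw [dot_one] at h1
    have : (L.drop m).sum = 0 := by exact_mod_cast h1
    have := le_sum _ a ha
    omega
  have hp : pack K (L.drop m) = 0 := by
    generalize L.drop m = T at hz ⊢
    induction T with
    | nil => rfl
    | cons a T ih =>
      rw [pack_cons, hz a (by simp), ih fun b hb => hz b (by simp [hb]), mul_zero, add_zero]
  refine ⟨?_, fun F => ?_⟩
  · conv_rhs => rw [← List.take_append_drop m L, pack_append, hp, mul_zero, add_zero]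
  · conv_rhs => rw [← List.take_append_drop m L, dot_append]
    rw [dot_zero (L.drop m) _ hz, add_zero]

/-- Both channels on a node law, completed at the unit vectors. -/
def twoComp (Q : PPar) (l : List (ℝ × V3)) (G : V3 → ℝ) : ℝ :=
  wR Q * comp l (fun v => G (chan (-aR Q) v)) +
    (1 - wR Q) * comp l (fun v => G (chan (-(aR Q / 2)) v))

theorem twoComp_eq {Q : PPar} {G : V3 → ℝ} (hs : Sym G) (l : List (ℝ × V3)) :
    twoComp Q l G = lval l (Kf Q G) + 3 * Hab Q G (e1 0) := by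
  have e : lval l (Kf Q G) = wR Q * lval l (rest fun v => G (chan (-aR Q) v)) +
      (1 - wR Q) * lval l (rest fun v => G (chan (-(aR Q / 2)) v)) := by
    rw [← lval_const_mul, ← lval_const_mul, ← lval_add, kf_eq_rest hs]
    congr 1
    funext v
    simp only [rest, Hab]
    ring
  have h1 := hab_e1 (Q := Q) hs 1
  have h2 := hab_e1 (Q := Q) hs 2
  simp only [twoComp, comp, e]
  simp only [Hab] at h1 h2 ⊢
  linear_combination h1 + h2

/-- The child law is below both channels applied to `l`. -/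
def ChildOk (Q : PPar) (S E : ℕ) (l : List (ℝ × V3)) : Prop :=
  ∀ G, Conc G → Sym G → sval Q.C S E G ≤ twoComp Q l G

/-- The corner of the simplex through both channels. -/
theorem corner_le {Q : PPar} (f : PFacts Q) {G : V3 → ℝ} (hG : Conc G) (hs : Sym G) :
    dot (addL (rowL Q.ctg0) (rowL Q.ctg1)) (clsVal Q.C G) / 2 ^ 40 +
      (Q.ce : ℝ) / 2 ^ 40 * G (eu 0) ≤ Hab Q G (e1 0) := by
  obtain ⟨ha0, ha2⟩ := aR_mem f
  obtain ⟨w0, w1⟩ := wR_mem f
  rcases f.ce with h | ⟨hh, h0, hc⟩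
  · simp only [h, Nat.cast_zero, zero_div, zero_mul, add_zero]
    exact pair_targets f hG hs f.cor (e1_nonneg 0) (by simp [e1]) (by simp [e1]) (by simp [e1])
  · have hcor := f.cor
    simp only [pairOk, Bool.and_eq_true] at hcor
    have hb := chan_targets f.par hG hs hcor.2 (show 2 * Q.an ≤ 2 * Q.ad by omega)
      (show 0 < 2 * Q.ad by have := f.an; omega) (wD_pos f) (v := e1 0) (e1_nonneg 0)
      (by simp [e1]) (by simp [e1]) (by simp [e1])
    rw [h0]
    simp only [rowL, addL]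
    have ha : aR Q = 1 / 2 := by
      have : (2 : ℝ) * Q.an = Q.ad := by exact_mod_cast hh
      have := (Nat.cast_pos (α := ℝ)).2 f.an
      rw [aR, ← ‹(2 : ℝ) * Q.an = Q.ad›]
      field_simp
    have hA : G (chan (-aR Q) (e1 0)) = G (eu 0) / 2 := by
      rw [ha, chan_eq_ch]
      exact ch_e1 hG hs 0
    have hw : (Q.ce : ℝ) / 2 ^ 40 ≤ wR Q / 2 := by
      unfold wR
      rw [div_div, div_le_div_iff₀ (by positivity)
        (by have := (Nat.cast_pos (α := ℝ)).2 (wD_pos f); positivity)]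
      have h' := (Nat.cast_le (α := ℝ)).2 hc
      push_cast at h'
      linarith
    have he := mul_le_mul_of_nonneg_right hw (hG.nn _ (eu_nonneg 0))
    have e2 : (1 - wR Q) * G (chan (-(aR Q / 2)) (e1 0)) =
        ((wD Q - wA Q : ℕ) : ℝ) / wD Q *
          G (chan (-((Q.an : ℝ) / (2 * Q.ad : ℕ))) (e1 0)) := by
      unfold wR aR
      rw [Nat.cast_sub f.w, sub_div, div_self (Nat.cast_ne_zero.2 (wD_pos f).ne'), Nat.cast_mul,
        div_div, mul_comm ((Q.ad : ℕ) : ℝ)]
      norm_num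
    rw [Hab, hA, e2]
    linarith

/-- The checked weights are below both channels applied to the node law. -/
theorem child_step {Q : PPar} (f : PFacts Q) {TN : Tr PLeaf} {TE : Tr PEdge}
    (hN : tall (pleafOk Q) Q.dN 0 TN = true) (hE : tall (pedgeOk Q) Q.dE 0 TE = true)
    {S E S' E' : ℕ} (hstep : pstepOk Q TN TE S E S' E' = true) :
    ChildOk Q S' E' (nodeL Q S E) := by
  intro G hG hs
  simp only [pstepOk, Bool.and_eq_true, Nat.ble_eq, Nat.blt_eq] at hstep
  obtain ⟨⟨⟨⟨⟨⟨hnode, hA⟩, hY⟩, hsum⟩, hM⟩, hbins⟩, hcor⟩ := hstep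
  obtain ⟨A, B, P, Y, g⟩ := good_node f.par f.bA f.P f.W f.W2 f.R hnode
  set N := node Q S E with hNdef
  obtain ⟨a, ea, la⟩ := g.lowA
  obtain ⟨y, ey, ly⟩ := g.lowY
  set c := 2 * Q.R2 with hc
  obtain ⟨pa, da⟩ := trim (K := Q.bA) la.win (m := 2 ^ Q.dN) fun i hi => by
    refine lt_of_lt_of_le ?_ f.dN
    have e := Nat.div_add_mod i Q.W
    have h3 := Nat.mul_le_mul_left Q.W hi.2
    have := f.W2
    rw [Nat.succ_mul, mul_comm (4 * Q.R2)]
    rw [show 2 * c = 4 * Q.R2 by omega] at h3 hi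
    omega
  obtain ⟨py, dy⟩ := trim (K := Q.bA) ly.win (m := 2 ^ Q.dE) fun i hi =>
    lt_of_lt_of_le (by omega) f.dE
  set ra := a.take (2 ^ Q.dN) with hra
  set ry := y.take (2 ^ Q.dE) with hry
  have sa : ra.sum ≤ N.sA := le_trans
    (by conv_rhs => rw [← List.take_append_drop (2 ^ Q.dN) a, List.sum_append]
        exact Nat.le_add_right _ _) la.sum
  have sy : ry.sum ≤ N.sY := le_trans
    (by conv_rhs => rw [← List.take_append_drop (2 ^ Q.dE) y, List.sum_append]
        exact Nat.le_add_right _ _) ly.sum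
  have dga : ∀ x ∈ ra, x < 2 ^ Q.bA := fun x hx => lt_of_le_of_lt ((le_sum _ x hx).trans sa) hA
  have dgy : ∀ x ∈ ry, x < 2 ^ Q.bA := fun x hx => lt_of_le_of_lt ((le_sum _ x hx).trans sy) hY
  set hlA := tcomb histP Q.dN TN ra with hlA_def
  set hlE := tcomb histQ Q.dE TE ry with hlE_def
  set Z := addL hlA hlE with hZ_def
  set M := (tcomb (fun a => [a.mu]) Q.dN TN ra).sum +
    (tcomb (fun a => [a.mu]) Q.dE TE ry).sum with hM_def
  set T := tread Q.bA (fun l x => cP Q l * x) Q.dN TN N.A +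
    tread Q.bA (fun l x => cQ Q l * x) Q.dE TE N.Y with hT_def
  have hMN : (((tcomb (fun a => [a.mu]) Q.dN TN ra).sum : ℕ) : ℝ) =
      tval (fun a _ => (a.mu : ℝ)) Q.dN 0 TN ra := by
    rw [← dot_one, dot_tcomb _ _ _ 0]; simp [dot]
  have hME : (((tcomb (fun a => [a.mu]) Q.dE TE ry).sum : ℕ) : ℝ) =
      tval (fun a _ => (a.mu : ℝ)) Q.dE 0 TE ry := by
    rw [← dot_one, dot_tcomb _ _ _ 0]; simp [dot]
  have eT : T = pack Q.C.cw Z + 2 ^ off Q.C * M := by
    apply Nat.cast_injective (R := ℝ)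
    rw [hT_def, ← ea, ← ey, ← pa, ← py]
    simp only [hZ_def, hM_def, hlA_def, hlE_def, Nat.cast_add, Nat.cast_mul, pack_addL, hMN, hME,
      ← hra, ← hry]
    rw [tread_eq (cP Q) _ _ _ dga (List.length_take_le _ _) 0,
      tread_eq (cQ Q) _ _ _ dgy (List.length_take_le _ _) 0, pack_tcomb _ _ _ 0, pack_tcomb _ _ _ 0]
    have eN : tval (fun a _ => (cP Q a : ℝ)) Q.dN 0 TN ra =
        tval (fun a n => 1 * (pack Q.C.cw (histP a) : ℝ) + ((2 ^ off Q.C : ℕ) : ℝ) * (a.mu : ℝ))
          Q.dN 0 TN ra := tval_congr (fun a n _ => by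
      simp [cP, histP, pack_smul, pack_addL, pack_rowL, Nat.shiftLeft_eq', Nat.shiftLeft_eq]
      ring) _ _ _ hN _
    have eE : tval (fun a _ => (cQ Q a : ℝ)) Q.dE 0 TE ry =
        tval (fun a n => 1 * (pack Q.C.cw (histQ a) : ℝ) + ((2 ^ off Q.C : ℕ) : ℝ) * (a.mu : ℝ))
          Q.dE 0 TE ry := tval_congr (fun a n _ => by
      simp [cQ, histQ, pack_smul, pack_addL, pack_rowL, Nat.shiftLeft_eq', Nat.shiftLeft_eq]
      ring) _ _ _ hE _
    rw [eN, eE, tval_combo, tval_combo]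
    push_cast
    ring
  have tgs : ∀ {c x y z t0 t1}, pairOk Q c x y z t0 t1 = true →
      (addL (rowL t0) (rowL t1)).length ≤ Q.C.classes.length := by
    intro c x y z t0 t1 h
    simp only [pairOk, chanOk, Bool.and_eq_true] at h
    rw [length_addL]
    exact max_le (length_rowL _ h.1.1.1.1) (length_rowL _ h.2.1.1.1)
  have hlenN : ∀ a m, pleafOk Q a m = true → (histP a).length ≤ Q.C.classes.length := by
    intro a m h
    simp only [pleafOk, Bool.and_eq_true] at h
    rw [histP, List.length_map]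
    exact tgs h.1.1.2
  have hlenE : ∀ a m, pedgeOk Q a m = true → (histQ a).length ≤ Q.C.classes.length := by
    intro a m h
    simp only [pedgeOk, Bool.and_eq_true] at h
    rw [histQ, List.length_map]
    exact tgs h.1.1.2
  have hsN : ∀ a m, pleafOk Q a m = true → (histP a).sum ≤ 2 ^ Q.C.cb := by
    intro a m h
    simp only [pleafOk, Bool.and_eq_true, Nat.ble_eq] at h
    rw [histP, sum_smul, sum_addL, sum_rowL, sum_rowL]
    exact h.1.2
  have hsE : ∀ a m, pedgeOk Q a m = true → (histQ a).sum ≤ 2 ^ Q.C.cb := by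
    intro a m h
    simp only [pedgeOk, Bool.and_eq_true, Nat.ble_eq] at h
    rw [histQ, sum_smul, sum_addL, sum_rowL, sum_rowL]
    exact h.1.2
  have hZlen : Z.length ≤ Q.C.classes.length := by
    rw [hZ_def, length_addL]
    exact max_le (length_tcomb hlenN _ _ _ hN _) (length_tcomb hlenE _ _ _ hE _)
  have hZsum : Z.sum ≤ (N.sA + N.sY) * 2 ^ Q.C.cb := by
    rw [hZ_def, sum_addL, add_mul, mul_comm N.sA, mul_comm N.sY]
    exact add_le_add ((tcomb_sum_le hsN hN _).trans (Nat.mul_le_mul le_rfl sa))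
      ((tcomb_sum_le hsE hE _).trans (Nat.mul_le_mul le_rfl sy))
  have hZs : ∀ x ∈ Z, x < 2 ^ Q.C.cw := by
    intro x hx
    refine lt_of_le_of_lt ((le_sum _ x hx).trans (hZsum.trans ?_)) hsum
    exact le_add_right (Nat.le_mul_of_pos_right _ (Nat.two_pow_pos _))
  have hlow : pack Q.C.cw Z < 2 ^ off Q.C :=
    lt_of_lt_of_le (pack_lt _ _ hZs)
      (Nat.pow_le_pow_right (by norm_num) (Nat.mul_le_mul le_rfl hZlen))
  have eLow : Nat.land T (mask (off Q.C)) = pack Q.C.cw Z := by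
    show Nat.land T (Nat.shiftLeft 1 (off Q.C) - 1) = _
    rw [Nat.shiftLeft_eq', Nat.one_shiftLeft]
    refine (Nat.and_two_pow_sub_one_eq_mod _ _).trans ?_
    rw [eT, Nat.add_mul_mod_self_left, Nat.mod_eq_of_lt hlow]
  have eHigh : Nat.shiftRight T (off Q.C) = M := by
    rw [Nat.shiftRight_eq', Nat.shiftRight_eq_div_pow, eT,
      Nat.add_mul_div_left _ _ (Nat.two_pow_pos _), Nat.div_eq_of_lt hlow, zero_add]
  rw [eLow, eHigh] at hbins
  rw [eHigh] at hcor hM
  set s := 3 * 2 ^ (Q.C.P + 40) - M with hs_def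
  set ct := addL (rowL Q.ctg0) (rowL Q.ctg1) with hct
  set Z' := addL (Z.map (2 ^ 40 * ·)) (ct.map (s * ·)) with hZ'_def
  have eZ' : pack Q.C.cw Z * 2 ^ 40 + s * (rowN Q.C Q.ctg0 + rowN Q.C Q.ctg1) =
      pack Q.C.cw Z' := by
    simp only [hZ'_def, hct, pack_addL, pack_smul, pack_rowL]
    ring
  rw [eZ'] at hbins
  have hZ's : ∀ x ∈ Z', x < 2 ^ Q.C.cw := by
    intro x hx
    refine lt_of_le_of_lt ((le_sum _ x hx).trans ?_) hsum
    simp only [hZ'_def, hct, sum_addL, sum_smul, sum_rowL]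
    rw [mul_comm (2 ^ 40) _]
    exact add_le_add (Nat.mul_le_mul_right _ hZsum)
      (Nat.mul_le_mul_right _ (Nat.sub_le _ _))
  have hb := bins_dot Q.C (6 * 2 ^ 80) Q.C.classes S' Z' hbins hZ's
    (fun c => G (vec Q.C 1 c.1 c.2)) fun c => hG.nn _ (vec_nonneg f.par _ _ _)
  change _ ≤ dot Z' (clsVal Q.C G) at hb
  rw [List.sum_map_mul_left, hZ'_def, dot_addL, dot_smul, dot_smul] at hb
  set K := Kf Q G with hK
  set c0 := Hab Q G (e1 0) with hc0
  have hKc := conc_kf f hG hs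
  rw [← hK] at hKc
  have hKs : Sym K := sym_kf hs
  have hc00 : 0 ≤ c0 := (conc_hab f hG).nn _ (e1_nonneg 0)
  -- the node law
  have hdom := g.dom K hKc.nn
  have hBg : ∀ k : Fin 3, lval (B k) K = lval (B 2) K := by
    intro k
    have h := g.imgB (Equiv.swap k 2) 2 K
    rw [show (Equiv.swap k 2).symm 2 = k by simp] at h
    rw [h]
    congr 1
    funext v
    exact hKs _ v
  have hY2 : lval Y K ≤ lval (B 2) K := by
    have h := g.dzB K hKc
    rwa [g.killed.lval_eq] at h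
  have hA2 := sector_le g.pA (sym_of_perm fun F π => (g.imgA π F).symm) hKc.nn hKs
  set Φ : V3 → ℝ := fun v => sect (v 0) (v 1) (v 2) * K v with hΦ
  have hsect : ∀ x y z : ℝ, 0 ≤ sect x y z := fun x y z => by
    unfold sect; split_ifs <;> norm_num
  have l1 := la.le Φ fun v hv => mul_nonneg (hsect _ _ _) (hKc.nn v hv)
  have l2 := ly.le K hKc.nn
  rw [← da] at l1
  rw [← dy] at l2
  rw [hBg 0, hBg 1] at hdom
  have hPp : (0 : ℝ) < 2 ^ Q.C.P := by positivity
  rw [div_le_iff₀ hPp] at l1 l2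
  set U := (2 : ℝ) ^ 40 with hU_def
  have lbN := tval_le_dot
    (fun a _ => (1 / 2 ^ 40) * dot (histP a) (clsVal Q.C G) + (-c0 / U) * (a.mu : ℝ))
    (fun i => Φ (pv Q c i)) (pleafOk Q)
    (fun i => mul_nonneg (hsect _ _ _) (hKc.nn _ (pv_nonneg f.par c i)))
    (fun a m hm => pnode_leaf f hG hs a m hm) Q.dN 0 TN hN ra
  have lbE := tval_le_dot
    (fun a _ => (1 / 2 ^ 40) * dot (histQ a) (clsVal Q.C G) + (-c0 / U) * (a.mu : ℝ))
    (fun k => 3 * K (ev Q c k)) (pedgeOk Q)
    (fun i => mul_nonneg (by norm_num) (hKc.nn _ (ev_nonneg f.par c i)))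
    (fun a m hm => pedge_leaf f hG hs a m hm) Q.dE 0 TE hE ry
  simp only [zero_add] at lbN lbE
  rw [tval_combo, ← hMN, ← dot_tcomb, ← hlA_def] at lbN
  rw [tval_combo, ← hME, ← dot_tcomb, ← hlE_def, dot_const_mul] at lbE
  rw [hZ_def, dot_addL] at hb
  have hMs : (M : ℝ) = ((tcomb (fun a => [a.mu]) Q.dN TN ra).sum : ℕ) +
      ((tcomb (fun a => [a.mu]) Q.dE TE ry).sum : ℕ) := by
    rw [hM_def]; push_cast; ring
  have hsR : (s : ℝ) = 3 * 2 ^ Q.C.P * U - M := by
    rw [hs_def, Nat.cast_sub hM, hU_def]; push_cast; ring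
  have hcorner := corner_le f hG hs
  rw [← hc0, ← hU_def, div_mul_eq_mul_div, ← add_div, div_le_iff₀ (by positivity)] at hcorner
  have hsc := mul_le_mul_of_nonneg_left hcorner (Nat.cast_nonneg (α := ℝ) s)
  have hE' : (3 : ℝ) * E' * (U * U) ≤ s * Q.ce := by
    have h' := (Nat.cast_le (α := ℝ)).2 hcor
    push_cast at h'
    rw [hU_def]
    ring_nf at h' ⊢
    linarith
  have hE2 := mul_le_mul_of_nonneg_right hE' (hG.nn _ (eu_nonneg 0))
  rw [twoComp_eq hs, sval_sym f.par S' E' hs, ← hc0]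
  set W := ((withW Q.C Q.C.classes S').map fun x => (x.2 : ℝ) * G (vec Q.C 1 x.1.1 x.1.2)).sum
    with hW
  have hb' : 6 * (U * U) * W ≤ U * (dot hlA (clsVal Q.C G) + dot hlE (clsVal Q.C G)) +
      s * dot ct (clsVal Q.C G) := by
    rw [hU_def]
    push_cast at hb
    ring_nf at hb ⊢
    linarith
  have hUp : (0 : ℝ) < U := by positivity
  have k1 : (dot hlA (clsVal Q.C G) + dot hlE (clsVal Q.C G)) - c0 * M ≤
      U * ((dot ra fun i => Φ (pv Q c i)) + 3 * dot ry fun k => K (ev Q c k)) := by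
    rw [hMs, ← div_le_iff₀' hUp]
    calc _ = (1 / U * dot hlA (clsVal Q.C G) +
          -c0 / U * ((tcomb (fun a => [a.mu]) Q.dN TN ra).sum : ℕ)) +
          (1 / U * dot hlE (clsVal Q.C G) +
          -c0 / U * ((tcomb (fun a => [a.mu]) Q.dE TE ry).sum : ℕ)) := by ring
      _ ≤ _ := add_le_add lbN lbE
  have k2 := mul_le_mul_of_nonneg_left k1 hUp.le
  have k3 : (dot ra fun i => Φ (pv Q c i)) + 3 * (dot ry fun k => K (ev Q c k)) ≤
      lval (nodeL Q S E) K * 2 ^ Q.C.P := by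
    nlinarith
  have k4 := mul_le_mul_of_nonneg_left k3 (mul_nonneg hUp.le hUp.le)
  rw [div_mul_eq_mul_div, div_mul_eq_mul_div, ← add_div, div_le_iff₀ hPp]
  refine le_of_mul_le_mul_left ?_ (mul_pos hUp hUp)
  rw [hsR] at hsc hb' hE2
  linarith

end Vale.P154.PD
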